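import Vale.Agent.P369.Bd3.B2

/-!
P369 (helper351), Z3v-b: the real-analysis core of the amplifier inequality, mode by mode, with the
minimum of the two one-mode estimates.
-/

set_option linter.all false

namespace Vale.Agent.P369G

open MeasureTheory Set Filter Function
open scoped Topology
open Vale.Agent.P369A

noncomputable section

theorem ii01 {a b : ℝ} {f : ℝ → ℝ} (hab : a ≤ b) (hf : ContinuousOn f (Icc a b)) :
    IntervalIntegrable f volume a b := by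
  apply ContinuousOn.intervalIntegrable
  rwa [uIcc_of_le hab]

/-- the first one-mode estimate: only the single inequalities are used -/
theorem amp_scalar_u {R : ℝ} (hR : 0 < R) {I : ℝ → ℝ}
    (hIc : ContinuousOn I (Icc 0 1)) (hI0 : ∀ ν ∈ Icc (0 : ℝ) 1, 0 ≤ I ν)
    {ic id : ℝ → ℝ → ℝ} {k₁ K : ℝ} (h1 : 1 < k₁) (hK : k₁ ≤ K)
    (hic : ContinuousOn (uncurry ic) (Icc k₁ K ×ˢ Icc 0 1))
    (hid : ContinuousOn (uncurry id) (Icc k₁ K ×ˢ Icc 0 1))
    (ha : ∀ k ∈ Icc k₁ K, ∀ ν ∈ Icc (0 : ℝ) 1, ic k ν ≤ I ν)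
    (hc : ∀ k ∈ Icc k₁ K, ∀ l ∈ Icc (0 : ℝ) 1, ∀ μ ∈ Icc (0 : ℝ) 1, id k μ ≤ I l) :
    ∫ k in k₁..K, ∫ ν in (0 : ℝ)..1,
        ((1 - ν) * ic k ν / (k * (R + 1) - 1 + ν) ^ 2 + ν * id k ν / ((k - 1) * (R + 1) + ν) ^ 2) ≤
      ∫ ν in (0 : ℝ)..1, 1 / (R + ν) * I ν := by
  have z01 : (0 : ℝ) ≤ 1 := zero_le_one
  have hR1 : 0 < R + 1 := by linarith
  have hpos : ∀ ν ∈ Icc (0 : ℝ) 1, 0 < R + ν := fun ν h => by linarith [h.1]
  have hCk : ∀ k ∈ Icc k₁ K, R < k * (R + 1) - 1 := fun k hk => by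
    have : 1 * (R + 1) < k * (R + 1) := mul_lt_mul_of_pos_right (lt_of_lt_of_le h1 hk.1) hR1
    linarith
  have hDk : ∀ k ∈ Icc k₁ K, 0 < (k - 1) * (R + 1) := fun k hk =>
    mul_pos (by linarith [hk.1]) hR1
  have hd1 : ∀ p ∈ Icc k₁ K ×ˢ Icc (0 : ℝ) 1, (p.1 * (R + 1) - 1 + p.2) ^ 2 ≠ 0 := by
    rintro p ⟨hk, hν⟩
    have h2 := hCk p.1 hk
    have h0 := hν.1
    have : 0 < p.1 * (R + 1) - 1 + p.2 := by linarith
    (clear * - this; positivity)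
  have hd2 : ∀ p ∈ Icc k₁ K ×ˢ Icc (0 : ℝ) 1, ((p.1 - 1) * (R + 1) + p.2) ^ 2 ≠ 0 := by
    rintro p ⟨hk, hν⟩
    have h2 := hDk p.1 hk
    have h0 := hν.1
    have : 0 < (p.1 - 1) * (R + 1) + p.2 := by linarith
    exact pow_ne_zero _ this.ne'
  have hd3 : ∀ p ∈ Icc k₁ K ×ˢ Icc (0 : ℝ) 1, ((p.1 - 1) * (R + 1) + (1 - p.2)) ^ 2 ≠ 0 := by
    rintro p ⟨hk, hν⟩
    have h2 := hDk p.1 hk
    have h0 := hν.2
    have : 0 < (p.1 - 1) * (R + 1) + (1 - p.2) := by linarith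
    exact pow_ne_zero _ this.ne'
  set F : ℝ → ℝ → ℝ := fun k ν =>
    (1 - ν) * ic k ν / (k * (R + 1) - 1 + ν) ^ 2 + ν * id k ν / ((k - 1) * (R + 1) + ν) ^ 2 with hF
  set G : ℝ → ℝ → ℝ := fun k ν =>
    (1 - ν) * I ν / (k * (R + 1) - 1 + ν) ^ 2 +
      (1 - ν) * I ν / ((k - 1) * (R + 1) + (1 - ν)) ^ 2 with hG
  have cF : ContinuousOn (uncurry F) (Icc k₁ K ×ˢ Icc 0 1) := by
    have e : uncurry F = fun p : ℝ × ℝ => (1 - p.2) * uncurry ic p / (p.1 * (R + 1) - 1 + p.2) ^ 2 +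
        p.2 * uncurry id p / ((p.1 - 1) * (R + 1) + p.2) ^ 2 := rfl
    rw [e]
    refine ContinuousOn.add (ContinuousOn.div (ContinuousOn.mul (by fun_prop) hic) (by fun_prop) hd1)
      (ContinuousOn.div (ContinuousOn.mul (by fun_prop) hid) (by fun_prop) hd2)
  have cI : ContinuousOn (fun p : ℝ × ℝ => I p.2) (Icc k₁ K ×ˢ Icc 0 1) :=
    hIc.comp continuousOn_snd fun p hp => hp.2
  have cG : ContinuousOn (uncurry G) (Icc k₁ K ×ˢ Icc 0 1) := by
    have e : uncurry G = fun p : ℝ × ℝ => (1 - p.2) * I p.2 / (p.1 * (R + 1) - 1 + p.2) ^ 2 +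
        (1 - p.2) * I p.2 / ((p.1 - 1) * (R + 1) + (1 - p.2)) ^ 2 := rfl
    rw [e]
    refine ContinuousOn.add (ContinuousOn.div (ContinuousOn.mul (by fun_prop) cI) (by fun_prop) hd1)
      (ContinuousOn.div (ContinuousOn.mul (by fun_prop) cI) (by fun_prop) hd3)
  have slice : ∀ {F : ℝ → ℝ → ℝ}, ContinuousOn (uncurry F) (Icc k₁ K ×ˢ Icc (0 : ℝ) 1) →
      ∀ k ∈ Icc k₁ K, ContinuousOn (F k) (Icc 0 1) := by
    intro F hF k hk
    have : ContinuousOn (fun m : ℝ => (k, m)) (Icc (0 : ℝ) 1) := by fun_prop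
    exact hF.comp this fun m hm => ⟨hk, hm⟩
  have step2 : ∫ k in k₁..K, ∫ ν in (0 : ℝ)..1, F k ν ≤ ∫ k in k₁..K, ∫ ν in (0 : ℝ)..1, G k ν := by
    refine intervalIntegral.integral_mono_on hK (rect_intervalIntegrable hK z01 cF)
      (rect_intervalIntegrable hK z01 cG) ?_
    intro k hk
    have q1 : ContinuousOn (fun ν : ℝ => (1 - ν) * I ν / (k * (R + 1) - 1 + ν) ^ 2) (Icc 0 1) :=
      ContinuousOn.div (ContinuousOn.mul (by fun_prop) hIc) (by fun_prop)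
        fun ν hν => hd1 (k, ν) ⟨hk, hν⟩
    have q3 : ContinuousOn (fun ν : ℝ => (1 - ν) * I ν / ((k - 1) * (R + 1) + (1 - ν)) ^ 2)
        (Icc 0 1) :=
      ContinuousOn.div (ContinuousOn.mul (by fun_prop) hIc) (by fun_prop)
        fun ν hν => hd3 (k, ν) ⟨hk, hν⟩
    have hIr : ContinuousOn (fun ν : ℝ => I (1 - ν)) (Icc 0 1) :=
      hIc.comp (by fun_prop) fun ν hν => ⟨by linarith [hν.2], by linarith [hν.1]⟩
    have q2 : ContinuousOn (fun ν : ℝ => ν * I (1 - ν) / ((k - 1) * (R + 1) + ν) ^ 2) (Icc 0 1) :=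
      ContinuousOn.div (ContinuousOn.mul (by fun_prop) hIr) (by fun_prop)
        fun ν hν => hd2 (k, ν) ⟨hk, hν⟩
    have e1 : ∫ ν in (0 : ℝ)..1, G k ν =
        (∫ ν in (0 : ℝ)..1, (1 - ν) * I ν / (k * (R + 1) - 1 + ν) ^ 2) +
          ∫ ν in (0 : ℝ)..1, ν * I (1 - ν) / ((k - 1) * (R + 1) + ν) ^ 2 := by
      have e2 := intervalIntegral.integral_comp_sub_left (a := (0 : ℝ)) (b := 1)
        (fun ν : ℝ => (1 - ν) * I ν / ((k - 1) * (R + 1) + (1 - ν)) ^ 2) 1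
      simp only [sub_sub_cancel, sub_zero, sub_self] at e2
      rw [e2, ← intervalIntegral.integral_add (ii01 z01 q1) (ii01 z01 q3)]
    rw [e1, ← intervalIntegral.integral_add (ii01 z01 q1) (ii01 z01 q2)]
    refine intervalIntegral.integral_mono_on z01 (ii01 z01 (slice cF k hk))
      ((ii01 z01 q1).add (ii01 z01 q2)) fun ν hν => ?_
    have p1 := ha k hk ν hν
    have p2 := hc k hk (1 - ν) ⟨by linarith [hν.2], by linarith [hν.1]⟩ ν hν
    simp only [hF]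
    refine add_le_add ?_ ?_
    · exact div_le_div_of_nonneg_right (mul_le_mul_of_nonneg_left p1 (by linarith [hν.2]))
        (sq_nonneg _)
    · exact div_le_div_of_nonneg_right (mul_le_mul_of_nonneg_left p2 hν.1) (sq_nonneg _)
  refine step2.trans ?_
  rw [rect_swap hK z01 cG]
  refine intervalIntegral.integral_mono_on z01 ?_ ?_ ?_
  · have cG' : ContinuousOn (uncurry fun ν k => G k ν) (Icc 0 1 ×ˢ Icc k₁ K) :=
      cG.comp continuous_swap.continuousOn fun p hp => ⟨hp.2, hp.1⟩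
    exact rect_intervalIntegrable z01 hK cG'
  · exact ii01 z01 (ContinuousOn.mul (continuousOn_const.div (by fun_prop)
      fun ν h => (hpos ν h).ne') hIc)
  · intro ν hν
    have hI := hI0 ν hν
    have hRν := hpos ν hν
    rcases hν.2.eq_or_lt with h | h
    · subst h
      have e : ∫ k in k₁..K, G k 1 = 0 := by
        simp [hG]
      rw [e]
      positivity
    · have hν1 : 0 < 1 - ν := by linarith
      have b1 : R + ν ≤ k₁ * (R + 1) + (ν - 1) := by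
        have := hCk k₁ ⟨le_rfl, hK⟩
        linarith
      have b2 : 1 - ν ≤ k₁ * (R + 1) + ((1 - ν) - (R + 1)) := by
        have := hDk k₁ ⟨le_rfl, hK⟩
        linarith
      have s1 := scal_kint hR1 hK b1 hRν
      have s2 := scal_kint hR1 hK b2 hν1
      have hcn1 : ∀ k ∈ Icc k₁ K, (k * (R + 1) + (ν - 1)) ^ 2 ≠ 0 := fun k hk => by
        have := hCk k hk
        have h3 : 0 < k * (R + 1) + (ν - 1) := by linarith [hν.1]
        exact pow_ne_zero _ h3.ne'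
      have hcn2 : ∀ k ∈ Icc k₁ K, (k * (R + 1) + ((1 - ν) - (R + 1))) ^ 2 ≠ 0 := fun k hk => by
        have := hDk k hk
        have h3 : 0 < k * (R + 1) + ((1 - ν) - (R + 1)) := by linarith [hν.1]
        exact pow_ne_zero _ h3.ne'
      have i1 : IntervalIntegrable (fun k : ℝ => 1 / (k * (R + 1) + (ν - 1)) ^ 2) volume k₁ K :=
        ii01 hK (continuousOn_const.div (by fun_prop) hcn1)
      have i2 : IntervalIntegrable (fun k : ℝ => 1 / (k * (R + 1) + ((1 - ν) - (R + 1))) ^ 2)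
          volume k₁ K := ii01 hK (continuousOn_const.div (by fun_prop) hcn2)
      have e : (fun k : ℝ => G k ν) = fun k => (1 - ν) * I ν * (1 / (k * (R + 1) + (ν - 1)) ^ 2) +
          (1 - ν) * I ν * (1 / (k * (R + 1) + ((1 - ν) - (R + 1))) ^ 2) := by
        funext k
        simp only [hG]
        have e1 : k * (R + 1) - 1 + ν = k * (R + 1) + (ν - 1) := by ring
        have e2 : (k - 1) * (R + 1) + (1 - ν) = k * (R + 1) + ((1 - ν) - (R + 1)) := by ring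
        rw [e1, e2]
        ring
      rw [e, intervalIntegral.integral_add (i1.const_mul _) (i2.const_mul _),
        intervalIntegral.integral_const_mul, intervalIntegral.integral_const_mul]
      have hJ0 : 0 ≤ (1 - ν) * I ν := mul_nonneg hν1.le hI
      have t1 := mul_le_mul_of_nonneg_left s1 hJ0
      have t2 := mul_le_mul_of_nonneg_left s2 hJ0
      have e3 : (1 - ν) * I ν * (1 / ((R + 1) * (R + ν))) + (1 - ν) * I ν *
          (1 / ((R + 1) * (1 - ν))) = 1 / (R + ν) * I ν := by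
        field_simp
        ring
      linarith

/-- the initial part -/
theorem mode_init {R B : ℝ} (hR : 0 < R) {iC : ℝ → ℝ → ℝ} {I : ℝ → ℝ} {t₁ : ℝ} (ht₁ : 1 < t₁)
    (hIc : ContinuousOn I (Icc 0 1)) (hI0 : ∀ m ∈ Icc (0 : ℝ) 1, 0 ≤ I m)
    (hiC : ContinuousOn (uncurry iC) (Icc 1 t₁ ×ˢ Icc (0 : ℝ) 1))
    (hdp : ∀ t, 1 ≤ t → ∀ ν ∈ Icc (0 : ℝ) 1, iC t ν / t ≤ I ν)
    (hB : ∫ m in (0 : ℝ)..1, (1 - m) / (R + m) ^ 2 * I m ≤ B) :
    (∫ t in (1 : ℝ)..t₁, ∫ m in (0 : ℝ)..1,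
      (1 - m) * (iC t m / t) / (t * (R + 1) - 1 + m) ^ 2) ≤ (t₁ - 1) * B := by
  have z01 : (0 : ℝ) ≤ 1 := zero_le_one
  have cw : ContinuousOn (fun m : ℝ => (1 - m) / (R + m) ^ 2) (Icc 0 1) :=
    ContinuousOn.div (by fun_prop) (by fun_prop) fun m hm => by
      have : 0 < R + m := by linarith only [hR, hm.1]
      (clear * - this; positivity)
  have cC : ContinuousOn (Function.uncurry fun t m =>
      (1 - m) * (iC t m / t) / (t * (R + 1) - 1 + m) ^ 2) (Icc 1 t₁ ×ˢ Icc (0 : ℝ) 1) := by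
    have e : (Function.uncurry fun t m => (1 - m) * (iC t m / t) / (t * (R + 1) - 1 + m) ^ 2) =
        fun p : ℝ × ℝ => (1 - p.2) * (Function.uncurry iC p / p.1) /
          (p.1 * (R + 1) - 1 + p.2) ^ 2 := rfl
    rw [e]
    refine ContinuousOn.div (ContinuousOn.mul (by fun_prop) (hiC.div (by fun_prop)
      fun p hp => ?_)) (by fun_prop) fun p hp => ?_
    · have := hp.1.1
      linarith only [this]
    · have h1 := z3_rC hR hp.1.1
      have h2 := hp.2.1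
      have : 0 < p.1 * (R + 1) - 1 + p.2 := by linarith only [hR, h1, h2]
      (clear * - this; positivity)
  have h1 : ∫ t in (1 : ℝ)..t₁, B = (t₁ - 1) * B := by
    rw [intervalIntegral.integral_const, smul_eq_mul]
  rw [← h1]
  refine intervalIntegral.integral_mono_on ht₁.le
    (ii01 ht₁.le (z3_cont_inner cC)) intervalIntegrable_const fun t ht => ?_
  refine le_trans ?_ hB
  have hsl : ContinuousOn (fun m => (1 - m) * (iC t m / t) / (t * (R + 1) - 1 + m) ^ 2)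
      (Icc 0 1) := by
    have : ContinuousOn (fun m : ℝ => (t, m)) (Icc (0 : ℝ) 1) := by fun_prop
    exact cC.comp this fun m hm => ⟨ht, hm⟩
  refine intervalIntegral.integral_mono_on z01 (ii01 z01 hsl) (ii01 z01 (cw.mul hIc))
    fun m hm => ?_
  have h2 := hdp t ht.1 m hm
  have h3 := z3_rC hR ht.1
  have h4 : 0 < R + m := by linarith only [hR, hm.1]
  have h5 : 0 ≤ 1 - m := by linarith only [hm.2]
  have h6 : (R + m) ^ 2 ≤ (t * (R + 1) - 1 + m) ^ 2 :=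
    pow_le_pow_left₀ h4.le (by linarith only [h3]) 2
  calc (1 - m) * (iC t m / t) / (t * (R + 1) - 1 + m) ^ 2
      ≤ (1 - m) * I m / (t * (R + 1) - 1 + m) ^ 2 :=
        div_le_div_of_nonneg_right (mul_le_mul_of_nonneg_left h2 h5) (sq_nonneg _)
    _ ≤ (1 - m) * I m / (R + m) ^ 2 :=
        div_le_div_of_nonneg_left (mul_nonneg h5 (hI0 m hm)) (by (clear * - h4; positivity)) h6
    _ = (1 - m) / (R + m) ^ 2 * I m := by ring

/-- the main part: both one-mode estimates -/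
theorem mode_main {R B L : ℝ} (hR : 0 < R) {iC iD : ℝ → ℝ → ℝ} {I : ℕ → ℝ → ℝ} {t₁ T : ℝ}
    (ht₁ : 1 < t₁) (hT : t₁ ≤ T)
    (hIc : ∀ Y, ContinuousOn (I Y) (Icc 0 1)) (hIv : ∀ Y, ConvexOn ℝ (Icc 0 1) (I Y))
    (hI0 : ∀ Y, ∀ m ∈ Icc (0 : ℝ) 1, 0 ≤ I Y m)
    (hiC : ContinuousOn (Function.uncurry iC) (Icc 1 T ×ˢ Icc (0 : ℝ) 1))
    (hQ : ∃ idY : ℕ → ℝ → ℝ → ℝ,
      (∀ᶠ Y in atTop,
        (∀ t₁ T, 1 < t₁ → ContinuousOn (Function.uncurry (idY Y)) (Icc t₁ T ×ˢ Icc 0 1)) ∧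
        (∀ t, 1 < t → ∀ μ ∈ Icc (0 : ℝ) 1, 0 ≤ idY Y t μ) ∧
        (∀ t, 1 < t → ∀ l ν : ℝ, 0 ≤ l → l ≤ ν → ν ≤ 1 →
          (1 - ν) * (iC t ν / t) + (ν - l) * idY Y t (ν - l) ≤ (1 - l) * I Y l) ∧
        (∀ t, 1 ≤ t → ∀ ν ∈ Icc (0 : ℝ) 1, iC t ν / t ≤ I Y ν) ∧
        (∀ t, 1 < t → ∀ l ∈ Icc (0 : ℝ) 1, ∀ μ ∈ Icc (0 : ℝ) 1, idY Y t μ ≤ I Y l)) ∧
      (∀ t, 1 < t → ∀ μ ∈ Icc (0 : ℝ) 1, Tendsto (fun Y => idY Y t μ) atTop
        (𝓝 (iD t μ / (t - 1)))))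
    (hB : ∀ Y, ∫ m in (0 : ℝ)..1, (1 - m) / (R + m) ^ 2 * I Y m ≤ B)
    (hL : (∀ Y, ∫ m in (0 : ℝ)..1, 1 / (R + m) * I Y m ≤ L) ∨
      Real.log (1 + 1 / R) / (1 / R - Real.log (1 + 1 / R)) * B ≤ L) :
    (∫ t in (1 : ℝ)..t₁, ∫ m in (0 : ℝ)..1,
        (1 - m) * (iC t m / t) / (t * (R + 1) - 1 + m) ^ 2) ≤ (t₁ - 1) * B ∧
    (∫ t in t₁..T, ∫ m in (0 : ℝ)..1,
          (1 - m) * (iC t m / t) / (t * (R + 1) - 1 + m) ^ 2) +
        (∫ t in t₁..T, ∫ m in (0 : ℝ)..1,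
          m * (iD t m / (t - 1)) / ((t - 1) * (R + 1) + m) ^ 2) ≤ L := by
  have z01 : (0 : ℝ) ≤ 1 := zero_le_one
  have ha := scal_den_pos hR
  have hR1 : 0 < R + 1 := by linarith only [hR]
  have hL0 : 0 ≤ Real.log (1 + 1 / R) := Real.log_nonneg (by
    have : 0 ≤ 1 / R := by positivity
    linarith only [this])
  have hc0 : 0 ≤ Real.log (1 + 1 / R) / (1 / R - Real.log (1 + 1 / R)) := div_nonneg hL0 ha.le
  have cw : ContinuousOn (fun m : ℝ => (1 - m) / (R + m) ^ 2) (Icc 0 1) :=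
    ContinuousOn.div (by fun_prop) (by fun_prop) fun m hm => by
      have : 0 < R + m := by linarith only [hR, hm.1]
      (clear * - this; positivity)
  obtain ⟨idY, hY, hlim⟩ := hQ
  constructor
  · obtain ⟨Y, hY'⟩ := hY.exists
    exact mode_init hR ht₁ (hIc Y) (hI0 Y) (hiC.mono (prod_mono (Icc_subset_Icc_right hT) le_rfl))
      hY'.2.2.2.1 (hB Y)
  have cC : ContinuousOn (Function.uncurry fun t m =>
      (1 - m) * (iC t m / t) / (t * (R + 1) - 1 + m) ^ 2) (Icc t₁ T ×ˢ Icc (0 : ℝ) 1) := by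
    have e : (Function.uncurry fun t m => (1 - m) * (iC t m / t) / (t * (R + 1) - 1 + m) ^ 2) =
        fun p : ℝ × ℝ => (1 - p.2) * (Function.uncurry iC p / p.1) /
          (p.1 * (R + 1) - 1 + p.2) ^ 2 := rfl
    rw [e]
    refine ContinuousOn.div (ContinuousOn.mul (by fun_prop) ((hiC.mono ?_).div (by fun_prop)
      fun p hp => ?_)) (by fun_prop) fun p hp => ?_
    · exact prod_mono (Icc_subset_Icc_left ht₁.le) le_rfl
    · have := ht₁.le.trans hp.1.1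
      linarith only [this]
    · have h1 := z3_rC hR (ht₁.le.trans hp.1.1)
      have h2 := hp.2.1
      have : 0 < p.1 * (R + 1) - 1 + p.2 := by linarith only [hR, h1, h2]
      (clear * - this; positivity)
  have cD : ∀ (f : ℝ → ℝ → ℝ),
      ContinuousOn (Function.uncurry f) (Icc t₁ T ×ˢ Icc (0 : ℝ) 1) →
      ContinuousOn (Function.uncurry fun t m => m * f t m / ((t - 1) * (R + 1) + m) ^ 2)
        (Icc t₁ T ×ˢ Icc (0 : ℝ) 1) := by
    intro f hf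
    have e : (Function.uncurry fun t m => m * f t m / ((t - 1) * (R + 1) + m) ^ 2) =
        fun p : ℝ × ℝ => p.2 * Function.uncurry f p / ((p.1 - 1) * (R + 1) + p.2) ^ 2 := rfl
    rw [e]
    refine ContinuousOn.div (ContinuousOn.mul (by fun_prop) hf) (by fun_prop) fun p hp => ?_
    have h1 := z3_rD hR (ht₁.trans_le hp.1.1)
    have h2 := hp.2.1
    have : 0 < (p.1 - 1) * (R + 1) + p.2 := by linarith only [h1, h2]
    (clear * - this; positivity)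
  have hid : Tendsto (fun Y => ∫ t in t₁..T, ∫ m in (0 : ℝ)..1,
      m * idY Y t m / ((t - 1) * (R + 1) + m) ^ 2) atTop
      (𝓝 (∫ t in t₁..T, ∫ m in (0 : ℝ)..1,
        m * (iD t m / (t - 1)) / ((t - 1) * (R + 1) + m) ^ 2)) := by
    refine z3_dct2 hT (M := B / (1 / R - Real.log (1 + 1 / R)) / ((t₁ - 1) * (R + 1)) ^ 2)
      ?_ ?_ ?_
    · filter_upwards [hY] with Y hY'
      exact cD _ (hY'.1 t₁ T ht₁)
    · filter_upwards [hY] with Y hY' t ht m hm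
      have h1t : 1 < t := ht₁.trans_le ht.1
      have h1 := hY'.2.1 t h1t m hm
      have h2 : idY Y t m ≤ B / (1 / R - Real.log (1 + 1 / R)) := by
        rw [le_div_iff₀ ha, ← scal_int1 hR, ← intervalIntegral.integral_const_mul]
        refine le_trans ?_ (hB Y)
        refine intervalIntegral.integral_mono_on z01
          (ii01 z01 (continuousOn_const.mul cw)) (ii01 z01 (cw.mul (hIc Y))) fun l hl => ?_
        rw [mul_comm]
        exact mul_le_mul_of_nonneg_left (hY'.2.2.2.2 t h1t l hl m hm)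
          (div_nonneg (by linarith only [hl.2]) (sq_nonneg _))
      have h3 : 0 < (t₁ - 1) * (R + 1) := z3_rD hR ht₁
      have h4 : (t₁ - 1) * (R + 1) ≤ (t - 1) * (R + 1) + m := by
        have : (t₁ - 1) * (R + 1) ≤ (t - 1) * (R + 1) :=
          mul_le_mul_of_nonneg_right (by linarith only [ht.1]) hR1.le
        linarith only [this, hm.1]
      rw [abs_of_nonneg (div_nonneg (mul_nonneg hm.1 h1) (sq_nonneg _))]
      refine div_le_div₀ (h1.trans h2) ?_ (by positivity) (pow_le_pow_left₀ h3.le h4 2)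
      exact (mul_le_of_le_one_left h1 hm.2).trans h2
    · intro t ht m hm
      exact ((hlim t (ht₁.trans_le ht.1) m hm).const_mul m).div_const _
  have hlim2 := hid.const_add (∫ t in t₁..T, ∫ m in (0 : ℝ)..1,
      (1 - m) * (iC t m / t) / (t * (R + 1) - 1 + m) ^ 2)
  refine le_of_tendsto hlim2 ?_
  filter_upwards [hY] with Y hY'
  rw [← z3_add2 hT cC (cD _ (hY'.1 t₁ T ht₁))]
  have hicc : ContinuousOn (Function.uncurry fun t m => iC t m / t)
      (Icc t₁ T ×ˢ Icc (0 : ℝ) 1) := by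
    have e : (Function.uncurry fun t m => iC t m / t) =
      fun p : ℝ × ℝ => Function.uncurry iC p / p.1 := rfl
    rw [e]
    refine (hiC.mono (prod_mono (Icc_subset_Icc_left ht₁.le) le_rfl)).div (by fun_prop)
      fun p hp => ?_
    have := ht₁.trans_le hp.1.1
    linarith only [this]
  rcases hL with hL | hL
  · refine le_trans ?_ (hL Y)
    exact amp_scalar_u hR (hIc Y) (hI0 Y) ht₁ hT hicc (hY'.1 t₁ T ht₁)
      (fun k hk ν hν => hY'.2.2.2.1 k (ht₁.le.trans hk.1) ν hν)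
      (fun k hk l hl μ hμ => hY'.2.2.2.2 k (ht₁.trans_le hk.1) l hl μ hμ)
  · refine le_trans ?_ hL
    refine le_trans ?_ (mul_le_mul_of_nonneg_left (hB Y) hc0)
    exact amp_scalar hR (hIv Y) (hIc Y) (hI0 Y) ht₁ hT hicc (hY'.1 t₁ T ht₁)
      (fun k hk ν hν => hY'.2.2.2.1 k (ht₁.le.trans hk.1) ν hν)
      (fun k hk l ν h0 hlν h1 => hY'.2.2.1 k (ht₁.trans_le hk.1) l ν h0 hlν h1)
      (fun k hk l hl μ hμ => hY'.2.2.2.2 k (ht₁.trans_le hk.1) l hl μ hμ)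

/-- the core of the amplifier inequality, mode by mode -/
theorem core_v {n : ℕ} {r e B L : Fin n → ℝ} (hr : ∀ j, 0 < r j) {yC yD : ℝ → ℝ}
    {iC iD : Fin n → ℕ → ℝ → ℝ → ℝ} {I : Fin n → ℕ → ℝ → ℝ}
    (hyD : ∀ t, 1 < t → 0 ≤ yD t) (hCD : ∀ t, 1 < t → yD t ≤ yC t)
    (hIc : ∀ j Y, ContinuousOn (I j Y) (Icc 0 1)) (hIv : ∀ j Y, ConvexOn ℝ (Icc 0 1) (I j Y))
    (hI0 : ∀ j Y, ∀ m ∈ Icc (0 : ℝ) 1, 0 ≤ I j Y m)
    (hiC : ∀ j X T, ContinuousOn (Function.uncurry (iC j X)) (Icc 1 T ×ˢ Icc (0 : ℝ) 1))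
    (hA : ∀ T, 1 ≤ T → ∀ ε > 0, ∀ᶠ X in atTop,
      (∑ j, PhiC 1 (r j) (e j) 1 - yC 1) - (∑ j, PhiC 1 (r j) (e j) T - yC T) ≤
        (∑ j, ∫ t in (1 : ℝ)..T, ∫ m in (0 : ℝ)..1,
          (1 - m) * (iC j X t m / t) / (t * (r j + 1) - 1 + m) ^ 2) + ε)
    (hAD : ∀ t₁ T, 1 < t₁ → t₁ ≤ T → ∀ ε > 0, ∀ᶠ X in atTop,
      (∑ j, PsiD 1 (r j) (e j) T - yD T) - (∑ j, PsiD 1 (r j) (e j) t₁ - yD t₁) ≤
        (∑ j, ∫ t in t₁..T, ∫ m in (0 : ℝ)..1,
          m * (iD j (2 * X) t m / (t - 1)) / ((t - 1) * (r j + 1) + m) ^ 2) + ε)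
    (hQ : ∀ j X, ∃ idY : ℕ → ℝ → ℝ → ℝ,
      (∀ᶠ Y in atTop,
        (∀ t₁ T, 1 < t₁ → ContinuousOn (Function.uncurry (idY Y)) (Icc t₁ T ×ˢ Icc 0 1)) ∧
        (∀ t, 1 < t → ∀ μ ∈ Icc (0 : ℝ) 1, 0 ≤ idY Y t μ) ∧
        (∀ t, 1 < t → ∀ l ν : ℝ, 0 ≤ l → l ≤ ν → ν ≤ 1 →
          (1 - ν) * (iC j X t ν / t) + (ν - l) * idY Y t (ν - l) ≤ (1 - l) * I j Y l) ∧
        (∀ t, 1 ≤ t → ∀ ν ∈ Icc (0 : ℝ) 1, iC j X t ν / t ≤ I j Y ν) ∧
        (∀ t, 1 < t → ∀ l ∈ Icc (0 : ℝ) 1, ∀ μ ∈ Icc (0 : ℝ) 1, idY Y t μ ≤ I j Y l)) ∧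
      (∀ t, 1 < t → ∀ μ ∈ Icc (0 : ℝ) 1, Tendsto (fun Y => idY Y t μ) atTop
        (𝓝 (iD j (2 * X) t μ / (t - 1)))))
    (hB : ∀ j Y, ∫ m in (0 : ℝ)..1, (1 - m) / (r j + m) ^ 2 * I j Y m ≤ B j)
    (hL : ∀ j, (∀ Y, ∫ m in (0 : ℝ)..1, 1 / (r j + m) * I j Y m ≤ L j) ∨
      Real.log (1 + 1 / r j) / (1 / r j - Real.log (1 + 1 / r j)) * B j ≤ L j) :
    ∑ j, PhiC 1 (r j) (e j) 1 - yC 1 ≤ ∑ j, L j := by
  have cC : ∀ j X a T, 1 ≤ a → ContinuousOn (Function.uncurry fun t m =>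
      (1 - m) * (iC j X t m / t) / (t * (r j + 1) - 1 + m) ^ 2) (Icc a T ×ˢ Icc (0 : ℝ) 1) := by
    intro j X a T ha1
    have hR := hr j
    have e : (Function.uncurry fun t m => (1 - m) * (iC j X t m / t) /
        (t * (r j + 1) - 1 + m) ^ 2) =
        fun p : ℝ × ℝ => (1 - p.2) * (Function.uncurry (iC j X) p / p.1) /
          (p.1 * (r j + 1) - 1 + p.2) ^ 2 := rfl
    rw [e]
    refine ContinuousOn.div (ContinuousOn.mul (by fun_prop) (((hiC j X T).mono ?_).div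
      (by fun_prop) fun p hp => ?_)) (by fun_prop) fun p hp => ?_
    · exact prod_mono (Icc_subset_Icc_left ha1) le_rfl
    · have := ha1.trans hp.1.1
      linarith only [this]
    · have h1 := z3_rC hR (ha1.trans hp.1.1)
      have h2 := hp.2.1
      have : 0 < p.1 * (r j + 1) - 1 + p.2 := by linarith only [hR, h1, h2]
      (clear * - this; positivity)
  -- the main step
  have main : ∀ t₁ T, 1 < t₁ → t₁ ≤ T → ∑ j, PhiC 1 (r j) (e j) 1 - yC 1 ≤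
      ∑ j, (PhiC 1 (r j) (e j) T - PsiD 1 (r j) (e j) T) +
        ∑ j, (PsiD 1 (r j) (e j) t₁ + (t₁ - 1) * B j) + ∑ j, L j := by
    intro t₁ T ht₁ hT
    have h1T : 1 ≤ T := ht₁.le.trans hT
    refine le_of_forall_pos_le_add fun ε hε => ?_
    obtain ⟨X, hX1, hX2⟩ := ((hA T h1T (ε / 2) (by linarith only [hε])).and
      (hAD t₁ T ht₁ hT (ε / 2) (by linarith only [hε]))).exists
    have hm := fun j => mode_main (hr j) ht₁ hT (hIc j) (hIv j) (hI0 j) (hiC j X T) (hQ j X)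
      (hB j) (hL j)
    have hsplit : ∀ j, (∫ t in (1 : ℝ)..T, ∫ m in (0 : ℝ)..1,
        (1 - m) * (iC j X t m / t) / (t * (r j + 1) - 1 + m) ^ 2) =
        (∫ t in (1 : ℝ)..t₁, ∫ m in (0 : ℝ)..1,
          (1 - m) * (iC j X t m / t) / (t * (r j + 1) - 1 + m) ^ 2) +
        ∫ t in t₁..T, ∫ m in (0 : ℝ)..1,
          (1 - m) * (iC j X t m / t) / (t * (r j + 1) - 1 + m) ^ 2 := fun j =>
      (intervalIntegral.integral_add_adjacent_intervals
        (ii01 ht₁.le (z3_cont_inner (cC j X 1 t₁ le_rfl)))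
        (ii01 hT (z3_cont_inner (cC j X t₁ T ht₁.le)))).symm
    have hsum : (∑ j, ∫ t in (1 : ℝ)..T, ∫ m in (0 : ℝ)..1,
          (1 - m) * (iC j X t m / t) / (t * (r j + 1) - 1 + m) ^ 2) +
        (∑ j, ∫ t in t₁..T, ∫ m in (0 : ℝ)..1,
          m * (iD j (2 * X) t m / (t - 1)) / ((t - 1) * (r j + 1) + m) ^ 2) ≤
        ∑ j, ((t₁ - 1) * B j + L j) := by
      rw [← Finset.sum_add_distrib]
      refine Finset.sum_le_sum fun j _ => ?_
      rw [hsplit j]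
      linarith [(hm j).1, (hm j).2]
    rw [Finset.sum_add_distrib] at hsum
    have h1 := hyD t₁ ht₁
    have h2 := hCD T (ht₁.trans_le hT)
    rw [Finset.sum_sub_distrib, Finset.sum_add_distrib]
    linarith
  -- limits
  refine le_of_forall_pos_le_add fun ε hε => ?_
  have l1 : Tendsto (fun t₁ : ℝ => ∑ j, (PsiD 1 (r j) (e j) t₁ + (t₁ - 1) * B j)) (𝓝[>] 1)
      (𝓝 (∑ j : Fin n, (0 + (1 - 1) * B j))) :=
    tendsto_finsetSum _ fun j _ => (z3_Psi_zero (hr j)).add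
      ((((continuous_id.sub continuous_const).mul continuous_const).tendsto (1 : ℝ)).mono_left
        nhdsWithin_le_nhds)
  have e1 : (∑ j : Fin n, (0 + (1 - 1) * B j)) = 0 := by simp
  rw [e1] at l1
  obtain ⟨t₁, ht1, ht2⟩ := ((l1.eventually (eventually_lt_nhds (show (0 : ℝ) < ε / 2 by
    linarith only [hε]))).and self_mem_nhdsWithin).exists
  have ht2 : 1 < t₁ := ht2
  have l2 : Tendsto (fun T : ℝ => ∑ j, (PhiC 1 (r j) (e j) T - PsiD 1 (r j) (e j) T)) atTop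
      (𝓝 (∑ j : Fin n, (0 : ℝ))) := tendsto_finsetSum _ fun j _ => z3_top (hr j)
  rw [Finset.sum_const_zero] at l2
  have l2 := l2.eventually (eventually_lt_nhds (show (0 : ℝ) < ε / 2 by linarith only [hε]))
  obtain ⟨T, hT1, hT2⟩ := (l2.and (eventually_ge_atTop t₁)).exists
  have := main t₁ T ht2 hT2
  linarith only [ht1, hT1, this]

end

end Vale.Agent.P369G
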