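import Vale.Agent.P369.Bd3.B2

/-!
P369 (helper351), Z3v-b: the real-analysis part of the amplifier inequality, mode by mode.
-/

set_option linter.all false

namespace Vale.Agent.P369G

open MeasureTheory Set Filter
open scoped Topology
open Vale.Agent.P369A

noncomputable section

theorem stageA1 {n R e : ℝ} (hR : 0 < R) {a b : ℝ} (ha : 1 ≤ a) (hab : a ≤ b)
    {PC trC enC : ℕ → ℝ → ℝ} {iC : ℕ → ℝ → ℝ → ℝ}
    (hPC : ∀ X, ∀ t ∈ Icc a b, PC X t = n * trC (X + 1) t +
      (∫ m in (0 : ℝ)..1, (1 - m) * iC X t m / (t * (R + 1) - 1 + m) ^ 2) -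
      1 / (t * (R + 1) - 1) * enC (X + 1) t +
      Real.log (1 + 1 / (t * (R + 1) - 1)) * (enC X t + n * trC X t))
    (hiC : ∀ X, ContinuousOn (Function.uncurry (iC X)) (Icc a b ×ˢ Icc (0 : ℝ) 1))
    (htc : ∀ X, ContinuousOn (trC X) (Icc a b)) (hec : ∀ X, ContinuousOn (enC X) (Icc a b))
    {M : ℝ} (htM : ∀ X, ∀ t ∈ Icc a b, |trC X t| ≤ M) (heM : ∀ X, ∀ t ∈ Icc a b, |enC X t| ≤ M)
    (htl : ∀ t ∈ Icc a b, Tendsto (fun X => trC X t) atTop (𝓝 1))
    (hel : ∀ t ∈ Icc a b, Tendsto (fun X => enC X t) atTop (𝓝 (t * e - n))) :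
    ∀ ε > 0, ∀ᶠ X in atTop, (∫ t in a..b, 1 / t * PC X t) ≤ PhiC n R e b - PhiC n R e a +
      (∫ t in a..b, ∫ m in (0 : ℝ)..1, (1 - m) * (iC X t m / t) / (t * (R + 1) - 1 + m) ^ 2) + ε := by
  intro ε hε
  have hr : ∀ t ∈ Icc a b, 0 < t * (R + 1) - 1 := fun t ht =>
    hR.trans_le (z3_rC hR (ha.trans ht.1))
  have ht0 : ∀ t ∈ Icc a b, t ≠ 0 := fun t ht => by
    have : 1 ≤ t := ha.trans ht.1
    linarith
  have c1 : ContinuousOn (fun t : ℝ => 1 / t) (Icc a b) := continuousOn_const.div continuousOn_id ht0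
  have c2 : ContinuousOn (fun t : ℝ => 1 / (t * (R + 1) - 1)) (Icc a b) :=
    continuousOn_const.div (by fun_prop) fun t ht => (hr t ht).ne'
  have c3 : ContinuousOn (fun t : ℝ => Real.log (1 + 1 / (t * (R + 1) - 1))) (Icc a b) := by
    refine ContinuousOn.log (f := fun t : ℝ => 1 + 1 / (t * (R + 1) - 1))
      (continuousOn_const.add c2) fun t ht => ?_
    have h1 : 0 < 1 / (t * (R + 1) - 1) := one_div_pos.2 (hr t ht)
    exact ne_of_gt (by linarith only [h1])
  have w1 : ContinuousOn (fun t : ℝ => 1 / t * n) (Icc a b) := c1.mul continuousOn_const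
  have w2 : ContinuousOn (fun t : ℝ => 1 / t * (1 / (t * (R + 1) - 1))) (Icc a b) := c1.mul c2
  have w3 : ContinuousOn (fun t : ℝ => 1 / t * Real.log (1 + 1 / (t * (R + 1) - 1))) (Icc a b) :=
    c1.mul c3
  have q3 : ∀ X, ContinuousOn (fun t => enC X t + n * trC X t) (Icc a b) := fun X =>
    (hec X).add (continuousOn_const.mul (htc X))
  have hM0 : 0 ≤ M := (abs_nonneg _).trans (htM 0 a ⟨le_rfl, hab⟩)
  have hMn : M ≤ M + |n| * M := le_add_of_nonneg_right (mul_nonneg (abs_nonneg _) hM0)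
  have l4 := z3_lim3 hab w1 w2 w3 (q₁ := fun X => trC (X + 1)) (q₂ := fun X => enC (X + 1))
    (q₃ := fun X t => enC X t + n * trC X t) (fun X => htc (X + 1)) (fun X => hec (X + 1)) q3
    (M := M + |n| * M)
    (fun X t ht => (htM (X + 1) t ht).trans hMn) (fun X t ht => (heM (X + 1) t ht).trans hMn)
    (fun X t ht => (abs_add_le _ _).trans (add_le_add (heM X t ht) (by
      rw [abs_mul]
      exact mul_le_mul_of_nonneg_left (htM X t ht) (abs_nonneg _))))
    (fun t ht => (tendsto_add_atTop_iff_nat 1).2 (htl t ht))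
    (fun t ht => (tendsto_add_atTop_iff_nat 1).2 (hel t ht))
    (fun t ht => (hel t ht).add ((htl t ht).const_mul n))
  have ii : ∀ {f : ℝ → ℝ}, ContinuousOn f (Icc a b) → IntervalIntegrable f volume a b := by
    intro f hf
    apply ContinuousOn.intervalIntegrable
    rwa [uIcc_of_le hab]
  have e1 : ∫ t in a..b, (1 / t * n * 1 - 1 / t * (1 / (t * (R + 1) - 1)) *
      (t * e - n) + 1 / t * Real.log (1 + 1 / (t * (R + 1) - 1)) *
      (t * e - n + n * 1)) = PhiC n R e b - PhiC n R e a := by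
    rw [← intervalIntegral.integral_eq_sub_of_hasDerivAt (f := PhiC n R e)
      (f' := fun t => 1 / t * (n - 1 / (t * (R + 1) - 1) * (t * e - n) +
        Real.log (1 + 1 / (t * (R + 1) - 1)) * (t * e)))]
    · refine intervalIntegral.integral_congr fun t _ => ?_
      ring
    · intro t ht
      rw [uIcc_of_le hab] at ht
      exact hasDerivAt_PhiC hR (ha.trans ht.1)
    · exact ii (c1.mul ((continuousOn_const.sub (c2.mul (by fun_prop))).add (c3.mul (by fun_prop))))
  rw [e1] at l4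
  have l5 := l4.eventually (eventually_lt_nhds (show PhiC n R e b - PhiC n R e a <
    PhiC n R e b - PhiC n R e a + ε / 2 by linarith only [hε]))
  filter_upwards [l5] with X h1
  have cF : ContinuousOn (Function.uncurry fun t m => (1 - m) * (iC X t m / t) /
      (t * (R + 1) - 1 + m) ^ 2) (Icc a b ×ˢ Icc (0 : ℝ) 1) := by
    have e : (Function.uncurry fun t m => (1 - m) * (iC X t m / t) / (t * (R + 1) - 1 + m) ^ 2) =
        fun p : ℝ × ℝ => (1 - p.2) * (Function.uncurry (iC X) p / p.1) /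
          (p.1 * (R + 1) - 1 + p.2) ^ 2 := rfl
    rw [e]
    refine ContinuousOn.div (ContinuousOn.mul (by fun_prop) ((hiC X).div (by fun_prop)
      fun p hp => ht0 p.1 hp.1)) (by (clear * -; fun_prop)) fun p hp => ?_
    have h1 := hr p.1 hp.1
    have h2 := hp.2.1
    have : 0 < p.1 * (R + 1) - 1 + p.2 := by linarith only [h1, h2]
    (clear * - h1 h2; positivity)
  have e2 : ∫ t in a..b, 1 / t * PC X t =
      (∫ t in a..b, ∫ m in (0 : ℝ)..1, (1 - m) * (iC X t m / t) / (t * (R + 1) - 1 + m) ^ 2) +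
      ∫ t in a..b, (1 / t * n * trC (X + 1) t - 1 / t * (1 / (t * (R + 1) - 1)) *
        enC (X + 1) t + 1 / t * Real.log (1 + 1 / (t * (R + 1) - 1)) *
        (enC X t + n * trC X t)) := by
    have h3 : ContinuousOn (fun t => 1 / t * n * trC (X + 1) t - 1 / t *
        (1 / (t * (R + 1) - 1)) * enC (X + 1) t + 1 / t * Real.log (1 + 1 / (t * (R + 1) - 1)) *
        (enC X t + n * trC X t)) (Icc a b) :=
      ((w1.mul (htc _)).sub (w2.mul (hec _))).add (w3.mul (q3 X))
    rw [← intervalIntegral.integral_add (ii (z3_cont_inner cF)) (ii h3)]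
    refine intervalIntegral.integral_congr fun t ht => ?_
    rw [uIcc_of_le hab] at ht
    rw [hPC X t ht]
    have e3 : ∫ m in (0 : ℝ)..1, (1 - m) * (iC X t m / t) / (t * (R + 1) - 1 + m) ^ 2 =
        1 / t * ∫ m in (0 : ℝ)..1, (1 - m) * iC X t m / (t * (R + 1) - 1 + m) ^ 2 := by
      rw [← intervalIntegral.integral_const_mul]
      refine intervalIntegral.integral_congr fun m _ => ?_
      ring
    rw [e3]
    ring
  rw [e2]
  linarith only [h1, hε]

theorem stageB1 {n R e : ℝ} (hR : 0 < R) {a b : ℝ} (ha : 1 < a) (hab : a ≤ b)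
    {GD trD enD : ℕ → ℝ → ℝ} {iD : ℕ → ℝ → ℝ → ℝ}
    (hGD : ∀ X, ∀ t ∈ Icc a b, GD X t =
      (∫ m in (0 : ℝ)..1, m * iD X t m / ((t - 1) * (R + 1) + m) ^ 2) -
      Real.log (1 + 1 / ((t - 1) * (R + 1))) * enD (X + 1) t +
      1 / (1 + (t - 1) * (R + 1)) * (enD X t + n * trD X t))
    (hiD : ∀ X, ContinuousOn (Function.uncurry (iD X)) (Icc a b ×ˢ Icc (0 : ℝ) 1))
    (htc : ∀ X, ContinuousOn (trD X) (Icc a b)) (hec : ∀ X, ContinuousOn (enD X) (Icc a b))
    {M : ℝ} (htM : ∀ X, ∀ t ∈ Icc a b, |trD X t| ≤ M) (heM : ∀ X, ∀ t ∈ Icc a b, |enD X t| ≤ M)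
    (htl : ∀ t ∈ Icc a b, Tendsto (fun X => trD X t) atTop (𝓝 1))
    (hel : ∀ t ∈ Icc a b, Tendsto (fun X => enD X t) atTop (𝓝 ((t - 1) * e))) :
    ∀ ε > 0, ∀ᶠ X in atTop, PsiD n R e b - PsiD n R e a ≤
      (∫ t in a..b, 1 / (t - 1) * (n * trD X t - GD (2 * X) t)) +
      (∫ t in a..b, ∫ m in (0 : ℝ)..1,
        m * (iD (2 * X) t m / (t - 1)) / ((t - 1) * (R + 1) + m) ^ 2) + ε := by
  intro ε hε
  have hr : ∀ t ∈ Icc a b, 0 < (t - 1) * (R + 1) := fun t ht => z3_rD hR (ha.trans_le ht.1)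
  have ht0 : ∀ t ∈ Icc a b, t - 1 ≠ 0 := fun t ht => by
    have : 1 < t := ha.trans_le ht.1
    linarith
  have c1 : ContinuousOn (fun t : ℝ => 1 / (t - 1)) (Icc a b) :=
    continuousOn_const.div (by fun_prop) ht0
  have c2 : ContinuousOn (fun t : ℝ => 1 / (1 + (t - 1) * (R + 1))) (Icc a b) :=
    continuousOn_const.div (by fun_prop) fun t ht => by
      have := hr t ht
      linarith
  have c3 : ContinuousOn (fun t : ℝ => Real.log (1 + 1 / ((t - 1) * (R + 1)))) (Icc a b) := by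
    refine ContinuousOn.log (f := fun t : ℝ => 1 + 1 / ((t - 1) * (R + 1)))
      (continuousOn_const.add (continuousOn_const.div (by fun_prop) fun t ht => (hr t ht).ne'))
      fun t ht => ?_
    have h1 : 0 < 1 / ((t - 1) * (R + 1)) := one_div_pos.2 (hr t ht)
    exact ne_of_gt (by linarith only [h1])
  have w1 : ContinuousOn (fun t : ℝ => 1 / (t - 1) * n) (Icc a b) := c1.mul continuousOn_const
  have w2 : ContinuousOn (fun t : ℝ => 1 / (t - 1) * (1 / (1 + (t - 1) * (R + 1)))) (Icc a b) :=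
    c1.mul c2
  have w3 : ContinuousOn (fun t : ℝ => 1 / (t - 1) * Real.log (1 + 1 / ((t - 1) * (R + 1))))
      (Icc a b) := c1.mul c3
  have q3 : ∀ X, ContinuousOn (fun t => enD X t + n * trD X t) (Icc a b) := fun X =>
    (hec X).add (continuousOn_const.mul (htc X))
  have hM0 : 0 ≤ M := (abs_nonneg _).trans (htM 0 a ⟨le_rfl, hab⟩)
  have hMn : M ≤ M + |n| * M := le_add_of_nonneg_right (mul_nonneg (abs_nonneg _) hM0)
  have l2X : Tendsto (fun X : ℕ => 2 * X) atTop atTop :=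
    tendsto_atTop_mono (fun X => by show X ≤ 2 * X; omega) tendsto_id
  have l2X1 : Tendsto (fun X : ℕ => 2 * X + 1) atTop atTop :=
    tendsto_atTop_mono (fun X => by show X ≤ 2 * X + 1; omega) tendsto_id
  have l4 := z3_lim3 hab w1 w2 w3 (q₁ := trD) (q₂ := fun X t => enD (2 * X) t + n * trD (2 * X) t)
    (q₃ := fun X => enD (2 * X + 1)) htc (fun X => q3 (2 * X)) (fun X => hec (2 * X + 1))
    (M := M + |n| * M)
    (fun X t ht => (htM X t ht).trans hMn)
    (fun X t ht => (abs_add_le _ _).trans (add_le_add (heM (2 * X) t ht) (by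
      rw [abs_mul]
      exact mul_le_mul_of_nonneg_left (htM (2 * X) t ht) (abs_nonneg _))))
    (fun X t ht => (heM (2 * X + 1) t ht).trans hMn)
    htl
    (fun t ht => ((hel t ht).comp l2X).add (((htl t ht).comp l2X).const_mul n))
    (fun t ht => (hel t ht).comp l2X1)
  have ii : ∀ {f : ℝ → ℝ}, ContinuousOn f (Icc a b) → IntervalIntegrable f volume a b := by
    intro f hf
    apply ContinuousOn.intervalIntegrable
    rwa [uIcc_of_le hab]
  have e1 : ∫ t in a..b, (1 / (t - 1) * n * 1 - 1 / (t - 1) * (1 / (1 + (t - 1) * (R + 1))) *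
      ((t - 1) * e + n * 1) + 1 / (t - 1) * Real.log (1 + 1 / ((t - 1) * (R + 1))) *
      ((t - 1) * e)) = PsiD n R e b - PsiD n R e a := by
    rw [← intervalIntegral.integral_eq_sub_of_hasDerivAt (f := PsiD n R e)
      (f' := fun t => 1 / (t - 1) * (n + Real.log (1 + 1 / ((t - 1) * (R + 1))) *
      ((t - 1) * e) - 1 / (1 + (t - 1) * (R + 1)) * ((t - 1) * e + n)))]
    · refine intervalIntegral.integral_congr fun t _ => ?_
      ring
    · intro t ht
      rw [uIcc_of_le hab] at ht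
      exact hasDerivAt_PsiD hR (ha.trans_le ht.1)
    · exact ii (c1.mul ((continuousOn_const.add (c3.mul (by fun_prop))).sub (c2.mul (by fun_prop))))
  rw [e1] at l4
  have l6 := l4.eventually (eventually_gt_nhds (show PsiD n R e b - PsiD n R e a - ε / 2 <
    PsiD n R e b - PsiD n R e a by linarith only [hε]))
  filter_upwards [l6] with X h1
  have cF : ContinuousOn (Function.uncurry fun t m => m * (iD (2 * X) t m / (t - 1)) /
      ((t - 1) * (R + 1) + m) ^ 2) (Icc a b ×ˢ Icc (0 : ℝ) 1) := by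
    have e : (Function.uncurry fun t m => m * (iD (2 * X) t m / (t - 1)) /
        ((t - 1) * (R + 1) + m) ^ 2) =
        fun p : ℝ × ℝ => p.2 * (Function.uncurry (iD (2 * X)) p / (p.1 - 1)) /
          ((p.1 - 1) * (R + 1) + p.2) ^ 2 := rfl
    rw [e]
    refine ContinuousOn.div (ContinuousOn.mul (by fun_prop) ((hiD (2 * X)).div (by fun_prop)
      fun p hp => ht0 p.1 hp.1)) (by (clear * -; fun_prop)) fun p hp => ?_
    have h1 := hr p.1 hp.1
    have h2 := hp.2.1
    have : 0 < (p.1 - 1) * (R + 1) + p.2 := by linarith only [h1, h2]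
    (clear * - h1 h2; positivity)
  have e2 : ∫ t in a..b, 1 / (t - 1) * (n * trD X t - GD (2 * X) t) =
      (∫ t in a..b, (1 / (t - 1) * n * trD X t - 1 / (t - 1) * (1 / (1 + (t - 1) * (R + 1))) *
        (enD (2 * X) t + n * trD (2 * X) t) + 1 / (t - 1) *
        Real.log (1 + 1 / ((t - 1) * (R + 1))) * enD (2 * X + 1) t)) -
      ∫ t in a..b, ∫ m in (0 : ℝ)..1,
        m * (iD (2 * X) t m / (t - 1)) / ((t - 1) * (R + 1) + m) ^ 2 := by
    have h3 : ContinuousOn (fun t => 1 / (t - 1) * n * trD X t - 1 / (t - 1) *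
        (1 / (1 + (t - 1) * (R + 1))) * (enD (2 * X) t + n * trD (2 * X) t) + 1 / (t - 1) *
        Real.log (1 + 1 / ((t - 1) * (R + 1))) * enD (2 * X + 1) t) (Icc a b) :=
      ((w1.mul (htc _)).sub (w2.mul (q3 _))).add (w3.mul (hec _))
    rw [← intervalIntegral.integral_sub (ii h3) (ii (z3_cont_inner cF))]
    refine intervalIntegral.integral_congr fun t ht => ?_
    rw [uIcc_of_le hab] at ht
    rw [hGD (2 * X) t ht]
    have e3 : ∫ m in (0 : ℝ)..1, m * (iD (2 * X) t m / (t - 1)) / ((t - 1) * (R + 1) + m) ^ 2 =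
        1 / (t - 1) * ∫ m in (0 : ℝ)..1, m * iD (2 * X) t m / ((t - 1) * (R + 1) + m) ^ 2 := by
      rw [← intervalIntegral.integral_const_mul]
      refine intervalIntegral.integral_congr fun m _ => ?_
      ring
    rw [e3]
    ring
  rw [e2]
  linarith only [h1, hε]

end

end Vale.Agent.P369G
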