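import Vale.Agent.P369.G351.Core
import Vale.Agent.P369.G351.Stage
import Vale.Agent.P369.H400.PairV
import Vale.Agent.P369.H400.Mono
import Vale.Agent.P369.H817.FlowFam
import Vale.Agent.P369.Aniso.Scalar2

/-!
P369 (helper351), Z3v-c: the amplifier inequality (A') with a vector of gains and one reference
temperature for each mode.
-/

set_option linter.all false

namespace Vale.Agent.P369G

open Matrix MeasureTheory Set Filter Function
open Vale.Agent.P369 (Conf)
open Vale.Agent.P369A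
open Vale.Agent.P369W (CkV DkV reg_CkV reg_DkV posDef_CkV posDef_DkV en0j en0j_nonneg)
open Vale.Agent.P369F (FXj IXj Ppj IXj_nonneg IXj_convex IXj_mono int_IXj_C int_IXj_D int_IXj_U)
open Vale.Agent.P369N (bb cp)
open scoped ComplexOrder Topology

noncomputable section

variable {n : ℕ} {M : ℕ} {ρ : Matrix (Fin n → Fin (M + 1)) (Fin n → Fin (M + 1)) ℂ}

theorem enXj_abs {s : Ker n} {E : ℝ} (h : Reg s E) (X : ℕ) (j : Fin n) :
    |P369F.enXj s X j| ≤ E := by
  have h0 : ∀ j, 0 ≤ P369F.enXj s X j := fun j => Finset.sum_nonneg fun x _ =>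
    mul_nonneg (Nat.cast_nonneg _) (diag_nonneg_of_cut (fun X => (h.pos X).posSemidef) x.1)
  rw [abs_of_nonneg (h0 j)]
  refine le_trans ?_ (h.en_le X)
  rw [P369F.enX_eq_sum]
  exact Finset.single_le_sum (f := fun j => P369F.enXj s X j) (fun j _ => h0 j) (Finset.mem_univ j)

theorem Ppj_IX {s : Ker n} (hs : ∀ X, (cut X s).PosDef) {r : ℝ} (hr : 0 < r) (X : ℕ) (j : Fin n) :
    Ppj s X j = 1 * trX s (X + 1) +
      (∫ m in (0 : ℝ)..1, (1 - m) * IXj m r s X j / (r + m) ^ 2) -
      1 / r * P369F.enXj s (X + 1) j +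
      Real.log (1 + 1 / r) * (P369F.enXj s X j + 1 * trX s X) := by
  have h := int_IXj_C hs hr X j
  have e : ∫ m in (0 : ℝ)..1, (1 - m) * IXj m r s X j / (r + m) ^ 2 =
      ∫ m in (0 : ℝ)..1, (1 - m) / (r + m) ^ 2 * IXj m r s X j :=
    intervalIntegral.integral_congr fun m _ => by ring
  rw [e, h]
  unfold Ppj
  ring

theorem GD_IX {s : Ker n} (hs : ∀ X, (cut X s).PosDef) {r : ℝ} (hr : 0 < r) (X : ℕ) (j : Fin n) :
    ∫ m in (0 : ℝ)..1, m * FXj m s X j =
      (∫ m in (0 : ℝ)..1, m * IXj m r s X j / (r + m) ^ 2) -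
        Real.log (1 + 1 / r) * P369F.enXj s (X + 1) j +
        1 / (1 + r) * (P369F.enXj s X j + 1 * trX s X) := by
  have h := int_IXj_D hs hr X j
  have e : ∫ m in (0 : ℝ)..1, m * IXj m r s X j / (r + m) ^ 2 =
      ∫ m in (0 : ℝ)..1, m / (r + m) ^ 2 * IXj m r s X j :=
    intervalIntegral.integral_congr fun m _ => by ring
  rw [e, h]
  ring

/-- the potential inequality -/
theorem potV (hρ : ρ.PosDef) (ht : ρ.trace = 1) {k : Fin n → ℝ} (hk : ∀ j, 1 < k j)
    {r : Fin n → ℝ} (hr : ∀ j, 0 < r j) {B L : Fin n → ℝ}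
    (hB : ∀ j Y, ∫ m in (0 : ℝ)..1, (1 - m) / (r j + m) ^ 2 * IXj m (r j) (CkV ρ k) Y j ≤ B j)
    (hL : ∀ j, (∀ Y, ∫ m in (0 : ℝ)..1, 1 / (r j + m) * IXj m (r j) (CkV ρ k) Y j ≤ L j) ∨
      Real.log (1 + 1 / r j) / (1 / r j - Real.log (1 + 1 / r j)) * B j ≤ L j) :
    ∑ j, PhiC 1 (r j) (k j * (en0j ρ j + 1)) 1 - Sl (CkV ρ k) ≤ ∑ j, L j := by
  have hk0 : ∀ j, 0 < k j := fun j => by linarith [hk j]
  set e : Fin n → ℝ := fun j => k j * (en0j ρ j + 1) with he
  have he0 : ∀ j, 0 ≤ e j := fun j => mul_nonneg (hk0 j).le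
    (add_nonneg (en0j_nonneg hρ.posSemidef j) zero_le_one)
  have hkt : ∀ {t : ℝ}, 1 ≤ t → ∀ j, 1 < t * k j := fun {t} h1 j => by
    nlinarith only [hk j, h1]
  have hdt : ∀ {t : ℝ}, 1 < t → ∀ j, 1 < 1 + (t - 1) * k j := fun {t} h1 j => by
    have := mul_pos (sub_pos.2 h1) (hk0 j)
    linarith
  have hC : ∀ t, 1 ≤ t → Reg (CkV ρ (fun i => t * k i)) (∑ j, (t * e j - 1)) := fun t h1 => by
    have h := reg_CkV hρ ht (hkt h1)
    have e1 : ∑ j, (t * k j * en0j ρ j + (t * k j - 1)) = ∑ j, (t * e j - 1) :=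
      Finset.sum_congr rfl fun j _ => by rw [he]; ring
    rwa [e1] at h
  have hD : ∀ t, 1 < t → Reg (DkV ρ (fun i => 1 + (t - 1) * k i)) (∑ j, (t - 1) * e j) :=
    fun t h1 => by
    have h := reg_DkV hρ ht (hdt h1)
    have e1 : ∑ j, (1 + (t - 1) * k j - 1) * (en0j ρ j + 1) = ∑ j, (t - 1) * e j :=
      Finset.sum_congr rfl fun j _ => by rw [he]; ring
    rwa [e1] at h
  have hp0 : ∀ X, (cut X (CkV ρ k)).PosDef := posDef_CkV hρ hk
  have hiC : ∀ (j : Fin n) X T, ContinuousOn (Function.uncurry fun t m =>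
      IXj m (t * (r j + 1) - 1) (CkV ρ (fun i => t * k i)) X j) (Icc 1 T ×ˢ Icc (0 : ℝ) 1) :=
    fun j X T => P369V8.continuousOn_IXj_CV hρ hk T (r := fun t => t * (r j + 1) - 1)
      (by fun_prop) X j
  have hiD : ∀ (j : Fin n) X t₁ T, 1 < t₁ → ContinuousOn (Function.uncurry fun t m =>
      IXj m ((t - 1) * (r j + 1)) (DkV ρ (fun i => 1 + (t - 1) * k i)) X j)
      (Icc t₁ T ×ˢ Icc (0 : ℝ) 1) :=
    fun j X t₁ T h1 => P369V8.continuousOn_IXj_DV hρ hk0 h1 T
      (r := fun t => (t - 1) * (r j + 1)) (by fun_prop) X j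
  have hIc : ∀ (j : Fin n) Y, ContinuousOn (fun m => IXj m (r j) (CkV ρ k) Y j) (Icc 0 1) :=
    fun j Y => by
    have h1 := hiC j Y 1
    have h2 : ContinuousOn (fun m : ℝ => ((1 : ℝ), m)) (Icc (0 : ℝ) 1) := by fun_prop
    have h3 := h1.comp h2 fun m hm => ⟨⟨le_rfl, le_rfl⟩, hm⟩
    have e1 : (fun m => IXj m (r j) (CkV ρ k) Y j) = (Function.uncurry fun t m =>
      IXj m (t * (r j + 1) - 1) (CkV ρ (fun i => t * k i)) Y j) ∘ fun m : ℝ => ((1 : ℝ), m) := by
      funext m
      simp [Function.uncurry]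
    rw [e1]
    exact h3
  have cC : ∀ T, ∀ x y, ContinuousOn (fun t => CkV ρ (fun i => t * k i) x y) (Icc 1 T) :=
    fun T => P369W.z3_cont_CV hk0 T
  have cD : ∀ t₁ T, 1 < t₁ → ∀ x y,
      ContinuousOn (fun t => DkV ρ (fun i => 1 + (t - 1) * k i) x y) (Icc t₁ T) :=
    fun t₁ T h1 => P369W.z3_cont_DV hk0 h1.le T
  -- stage A
  have hA : ∀ T, 1 ≤ T → ∀ ε > 0, ∀ᶠ X in atTop,
      (∑ j, PhiC 1 (r j) (e j) 1 - Sl (CkV ρ (fun i => 1 * k i))) -
        (∑ j, PhiC 1 (r j) (e j) T - Sl (CkV ρ (fun i => T * k i))) ≤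
        (∑ j, ∫ t in (1 : ℝ)..T, ∫ m in (0 : ℝ)..1,
        (1 - m) * (IXj m (t * (r j + 1) - 1) (CkV ρ (fun i => t * k i)) X j / t) /
          (t * (r j + 1) - 1 + m) ^ 2) + ε := by
    intro T hT ε hε
    have hM : ∀ t ∈ Icc (1 : ℝ) T, ∑ j, (t * e j - 1) ≤ ∑ j, T * e j := fun t h =>
      Finset.sum_le_sum fun j _ => by
        have := mul_le_mul_of_nonneg_right h.2 (he0 j)
        linarith
    have hM0 : 0 ≤ ∑ j, T * e j := Finset.sum_nonneg fun j _ =>
      mul_nonneg (by linarith) (he0 j)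
    have hst : ∀ j, ∀ᶠ X in atTop, (∫ t in (1 : ℝ)..T, 1 / t * Ppj (CkV ρ (fun i => t * k i)) X j) ≤
        PhiC 1 (r j) (e j) T - PhiC 1 (r j) (e j) 1 +
        (∫ t in (1 : ℝ)..T, ∫ m in (0 : ℝ)..1,
        (1 - m) * (IXj m (t * (r j + 1) - 1) (CkV ρ (fun i => t * k i)) X j / t) /
          (t * (r j + 1) - 1 + m) ^ 2) + ε / (2 * (n + 1)) := by
      intro j
      refine stageA1 (n := 1) (R := r j) (e := e j) (hr j) le_rfl hT
        (PC := fun X t => Ppj (CkV ρ (fun i => t * k i)) X j)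
        (trC := fun X t => trX (CkV ρ (fun i => t * k i)) X)
        (enC := fun X t => P369F.enXj (CkV ρ (fun i => t * k i)) X j)
        (iC := fun X t m => IXj m (t * (r j + 1) - 1) (CkV ρ (fun i => t * k i)) X j)
        (M := 1 + ∑ j, T * e j)
        (fun X t h => Ppj_IX (hC t h.1).pos ((hr j).trans_le (z3_rC (hr j) h.1)) X j)
        (fun X => hiC j X T) (fun X => continuousOn_trX (cC T) X) ?_ ?_ ?_
        (fun t h => (hC t h.1).tr) ?_ (ε / (2 * (n + 1))) (by positivity)
      · intro X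
        unfold P369F.enXj
        exact continuousOn_finsetSum _ fun x _ => continuousOn_const.mul
          (Complex.continuous_re.comp_continuousOn (cC T x.1 x.1))
      · intro X t h
        have h1 := z3_tr_abs (hC t h.1) X
        linarith
      · intro X t h
        have h1 := enXj_abs (hC t h.1) X j
        have h2 := hM t h
        linarith
      · intro t h
        have h1 := P369W.tendsto_enXj_CkV (ρ := ρ) ht (k := fun i => t * k i)
          (fun j => (hkt h.1 j).le) j
        have e1 : t * k j * en0j ρ j + (t * k j - 1) = t * e j - 1 := by rw [he]; ring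
        rw [e1] at h1
        exact h1
    have hfl := (P369V8.flow_CV (a := 1) (b := T) hρ ht one_pos (hkt le_rfl) hT).2 (ε / 2)
      (by linarith)
    filter_upwards [Filter.eventually_all.2 hst, hfl] with X h1 h2
    have hsum : ∫ t in (1 : ℝ)..T, 1 / t * ∑ j, Ppj (CkV ρ (fun i => t * k i)) X j =
        ∑ j, ∫ t in (1 : ℝ)..T, 1 / t * Ppj (CkV ρ (fun i => t * k i)) X j := by
      rw [← intervalIntegral.integral_finsetSum]
      · refine intervalIntegral.integral_congr fun t _ => ?_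
        rw [Finset.mul_sum]
      · intro j _
        refine ii01 hT (ContinuousOn.mul (continuousOn_const.div continuousOn_id fun t h => ?_)
          (P369F.continuousOn_Ppj (s := fun t => CkV ρ (fun i => t * k i))
            (fun t h => (hC t h.1).pos) (cC T) X j))
        have := h.1
        show t ≠ 0
        linarith
    rw [hsum] at h2
    have h3 := Finset.sum_le_sum fun j (_ : j ∈ (Finset.univ : Finset (Fin n))) => h1 j
    rw [Finset.sum_add_distrib, Finset.sum_add_distrib, Finset.sum_sub_distrib] at h3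
    have h4 : ∑ _j : Fin n, ε / (2 * ((n : ℝ) + 1)) ≤ ε / 2 := by
      rw [Finset.sum_const, Finset.card_univ, Fintype.card_fin, nsmul_eq_mul]
      have : (n : ℝ) * (ε / (2 * (n + 1))) = (n / (n + 1)) * (ε / 2) := by
        field_simp
      rw [this]
      have h5 : (n : ℝ) / (n + 1) ≤ 1 := by
        rw [div_le_one (by positivity)]
        linarith
      have h6 := mul_le_mul_of_nonneg_right h5 (show 0 ≤ ε / 2 by linarith)
      linarith
    linarith
  -- stage B
  have hAD : ∀ t₁ T, 1 < t₁ → t₁ ≤ T → ∀ ε > 0, ∀ᶠ X in atTop,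
      (∑ j, PsiD 1 (r j) (e j) T - Sl (DkV ρ (fun i => 1 + (T - 1) * k i))) -
        (∑ j, PsiD 1 (r j) (e j) t₁ - Sl (DkV ρ (fun i => 1 + (t₁ - 1) * k i))) ≤
        (∑ j, ∫ t in t₁..T, ∫ m in (0 : ℝ)..1,
        m * (IXj m ((t - 1) * (r j + 1)) (DkV ρ (fun i => 1 + (t - 1) * k i)) (2 * X) j / (t - 1)) /
          ((t - 1) * (r j + 1) + m) ^ 2) + ε := by
    intro t₁ T ht₁ hT ε hε
    have hM : ∀ t ∈ Icc t₁ T, ∑ j, (t - 1) * e j ≤ ∑ j, T * e j := fun t h =>
      Finset.sum_le_sum fun j _ => mul_le_mul_of_nonneg_right (by linarith [h.2]) (he0 j)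
    have hM0 : 0 ≤ ∑ j, T * e j := Finset.sum_nonneg fun j _ =>
      mul_nonneg (by linarith) (he0 j)
    have hst : ∀ j, ∀ᶠ X in atTop, PsiD 1 (r j) (e j) T - PsiD 1 (r j) (e j) t₁ ≤
        (∫ t in t₁..T, 1 / (t - 1) * (1 * trX (DkV ρ (fun i => 1 + (t - 1) * k i)) X -
          ∫ m in (0 : ℝ)..1, m * FXj m (DkV ρ (fun i => 1 + (t - 1) * k i)) (2 * X) j)) +
        (∫ t in t₁..T, ∫ m in (0 : ℝ)..1,
        m * (IXj m ((t - 1) * (r j + 1)) (DkV ρ (fun i => 1 + (t - 1) * k i)) (2 * X) j / (t - 1)) /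
          ((t - 1) * (r j + 1) + m) ^ 2) + ε / (2 * (n + 1)) := by
      intro j
      refine stageB1 (n := 1) (R := r j) (e := e j) (hr j) ht₁ hT
        (GD := fun X t => ∫ m in (0 : ℝ)..1, m * FXj m (DkV ρ (fun i => 1 + (t - 1) * k i)) X j)
        (trD := fun X t => trX (DkV ρ (fun i => 1 + (t - 1) * k i)) X)
        (enD := fun X t => P369F.enXj (DkV ρ (fun i => 1 + (t - 1) * k i)) X j)
        (iD := fun X t m => IXj m ((t - 1) * (r j + 1)) (DkV ρ (fun i => 1 + (t - 1) * k i)) X j)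
        (M := 1 + ∑ j, T * e j)
        (fun X t h => GD_IX (hD t (ht₁.trans_le h.1)).pos (z3_rD (hr j) (ht₁.trans_le h.1)) X j)
        (fun X => hiD j X t₁ T ht₁) (fun X => continuousOn_trX (cD t₁ T ht₁) X) ?_ ?_ ?_
        (fun t h => (hD t (ht₁.trans_le h.1)).tr) ?_ (ε / (2 * (n + 1))) (by positivity)
      · intro X
        unfold P369F.enXj
        exact continuousOn_finsetSum _ fun x _ => continuousOn_const.mul
          (Complex.continuous_re.comp_continuousOn (cD t₁ T ht₁ x.1 x.1))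
      · intro X t h
        have h1 := z3_tr_abs (hD t (ht₁.trans_le h.1)) X
        linarith
      · intro X t h
        have h1 := enXj_abs (hD t (ht₁.trans_le h.1)) X j
        have h2 := hM t h
        linarith
      · intro t h
        have h1 := P369W.tendsto_enXj_DkV (ρ := ρ) ht (k := fun i => 1 + (t - 1) * k i)
          (fun j => (hdt (ht₁.trans_le h.1) j).le) j
        have e1 : (1 + (t - 1) * k j - 1) * (en0j ρ j + 1) = (t - 1) * e j := by rw [he]; ring
        rw [e1] at h1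
        exact h1
    have hfl := (P369V8.flow_DV (a := t₁) (b := T) hρ ht ht₁ hk0 hT).2 (ε / 2)
      (by linarith)
    have l2X : Tendsto (fun X : ℕ => 2 * X) atTop atTop :=
      tendsto_atTop_mono (fun X => by show X ≤ 2 * X; omega) tendsto_id
    filter_upwards [Filter.eventually_all.2 hst, l2X.eventually hfl] with X h1 h2
    have hpos : ∀ t ∈ Icc t₁ T, 0 < t - 1 := fun t h => by
      have := h.1
      linarith
    have cw : ContinuousOn (fun t : ℝ => 1 / (t - 1)) (Icc t₁ T) :=
      continuousOn_const.div (by fun_prop) fun t h => (hpos t h).ne'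
    have cG : ∀ j, ContinuousOn (fun t => ∫ m in (0 : ℝ)..1,
        m * FXj m (DkV ρ (fun i => 1 + (t - 1) * k i)) (2 * X) j) (Icc t₁ T) := fun j =>
      P369F.continuousOn_int_w (s := fun t => DkV ρ (fun i => 1 + (t - 1) * k i))
        (fun t h => (hD t (ht₁.trans_le h.1)).pos) (cD t₁ T ht₁) (w := fun m => m) (by fun_prop)
        (2 * X) j
    have hsum : (∑ j, ∫ t in t₁..T, 1 / (t - 1) * (1 * trX (DkV ρ (fun i => 1 + (t - 1) * k i)) X -
          ∫ m in (0 : ℝ)..1, m * FXj m (DkV ρ (fun i => 1 + (t - 1) * k i)) (2 * X) j)) ≤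
        ∫ t in t₁..T, 1 / (t - 1) * ∑ j, (1 - ∫ m in (0 : ℝ)..1,
          m * FXj m (DkV ρ (fun i => 1 + (t - 1) * k i)) (2 * X) j) := by
      rw [← intervalIntegral.integral_finsetSum]
      · refine intervalIntegral.integral_mono_on hT (ii01 hT ?_) (ii01 hT ?_) fun t h => ?_
        · exact continuousOn_finsetSum _ fun j _ => cw.mul
            ((continuousOn_const.mul (continuousOn_trX (cD t₁ T ht₁) X)).sub (cG j))
        · exact cw.mul (continuousOn_finsetSum _ fun j _ => continuousOn_const.sub (cG j))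
        · rw [Finset.mul_sum]
          refine Finset.sum_le_sum fun j _ => ?_
          have h3 := hpos t h
          refine mul_le_mul_of_nonneg_left ?_ (by positivity)
          have h4 := (hD t (ht₁.trans_le h.1)).tr_le X
          linarith
      · intro j _
        exact ii01 hT (cw.mul
            ((continuousOn_const.mul (continuousOn_trX (cD t₁ T ht₁) X)).sub (cG j)))
    have h3 := Finset.sum_le_sum fun j (_ : j ∈ (Finset.univ : Finset (Fin n))) => h1 j
    rw [Finset.sum_add_distrib, Finset.sum_add_distrib, Finset.sum_sub_distrib] at h3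
    have h4 : ∑ _j : Fin n, ε / (2 * ((n : ℝ) + 1)) ≤ ε / 2 := by
      rw [Finset.sum_const, Finset.card_univ, Fintype.card_fin, nsmul_eq_mul]
      have : (n : ℝ) * (ε / (2 * (n + 1))) = (n / (n + 1)) * (ε / 2) := by
        field_simp
      rw [this]
      have h5 : (n : ℝ) / (n + 1) ≤ 1 := by
        rw [div_le_one (by positivity)]
        linarith
      have h6 := mul_le_mul_of_nonneg_right h5 (show 0 ≤ ε / 2 by linarith)
      linarith
    linarith
  have h := core_v (r := r) (e := e) (B := B) (L := L) hr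
    (yC := fun t => Sl (CkV ρ (fun i => t * k i)))
    (yD := fun t => Sl (DkV ρ (fun i => 1 + (t - 1) * k i)))
    (iC := fun j X t m => IXj m (t * (r j + 1) - 1) (CkV ρ (fun i => t * k i)) X j)
    (iD := fun j X t m => IXj m ((t - 1) * (r j + 1)) (DkV ρ (fun i => 1 + (t - 1) * k i)) X j)
    (I := fun j Y m => IXj m (r j) (CkV ρ k) Y j)
    (fun t h => (hD t h).Sl_nonneg) (fun t h => P369W.Sl_DkV_le_CkV hρ ht hk h) hIc
    (fun j Y => IXj_convex hp0 (r j) Y j) (fun j Y m hm => IXj_nonneg hp0 hm (r j) Y j) hiC hA hAD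
    (fun j X => P369W.pair_finalV j hρ hk (r j) X (2 * X)) hB hL
  simpa only [one_mul] using h

/-- (A'): the amplifier inequality with the minimum inside each mode -/
theorem AprimeV (hρ : ρ.PosDef) (ht : ρ.trace = 1) {k : Fin n → ℝ} (hk : ∀ j, 1 < k j)
    {gp gm : Fin n → ℝ}
    (hgp : ∀ j X, ∫ m in (0 : ℝ)..1, (1 - m) * FXj m (CkV ρ k) X j ≤ gp j)
    (hgm : ∀ j X, ∫ m in (0 : ℝ)..1, m * FXj m (CkV ρ k) X j ≤ gm j)
    {r : Fin n → ℝ} (hr : ∀ j, 0 < r j) :
    ∑ j, (P369.g (r j) - min (r j * (1 + gp j) - (r j + 1) * (1 - gm j))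
      (cp (r j) * ((1 + gp j) - (r j + 1) * bb (r j)))) ≤ Sl (CkV ρ k) := by
  have hp0 : ∀ X, (cut X (CkV ρ k)).PosDef := posDef_CkV hρ hk
  have hreg := reg_CkV hρ ht hk
  set e : Fin n → ℝ := fun j => k j * (en0j ρ j + 1) with he
  have hen : ∀ j, Tendsto (fun X => P369F.enXj (CkV ρ k) X j) atTop (𝓝 (e j - 1)) := fun j => by
    have h1 := P369W.tendsto_enXj_CkV (ρ := ρ) ht (k := k) (fun j => (hk j).le) j
    have e1 : k j * en0j ρ j + (k j - 1) = e j - 1 := by rw [he]; ring
    rw [e1] at h1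
    exact h1
  have htr := hreg.tr
  have hb : ∀ j, 0 < bb (r j) := fun j => P369N.bb_pos (hr j)
  have hint : ∀ (j : Fin n) X (w : ℝ → ℝ), Continuous w →
      IntervalIntegrable (fun m => w m * FXj m (CkV ρ k) X j) volume 0 1 := fun j X w hw =>
    (P369F.int_FXj hp0 X j).continuousOn_mul hw.continuousOn
  -- the two bounds
  have hC : ∀ j Y, ∫ m in (0 : ℝ)..1, (1 - m) / (r j + m) ^ 2 * IXj m (r j) (CkV ρ k) Y j ≤
      gp j + 1 / r j * (e j - 1) - bb (r j) * (e j - 1 + 1) := by
    intro j Y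
    have l1 : Tendsto (fun X => gp j + 1 / r j * P369F.enXj (CkV ρ k) (X + 1) j -
        bb (r j) * (P369F.enXj (CkV ρ k) X j + trX (CkV ρ k) X)) atTop
        (𝓝 (gp j + 1 / r j * (e j - 1) - bb (r j) * (e j - 1 + 1))) :=
      (tendsto_const_nhds.add (((tendsto_add_atTop_iff_nat 1).2 (hen j)).const_mul _)).sub
        (((hen j).add htr).const_mul _)
    refine ge_of_tendsto l1 ?_
    filter_upwards [eventually_ge_atTop Y] with X hX
    have h1 : ∫ m in (0 : ℝ)..1, (1 - m) / (r j + m) ^ 2 * IXj m (r j) (CkV ρ k) Y j ≤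
        ∫ m in (0 : ℝ)..1, (1 - m) / (r j + m) ^ 2 * IXj m (r j) (CkV ρ k) X j := by
      have hc : ∀ Z, ContinuousOn (fun m => (1 - m) / (r j + m) ^ 2 *
          IXj m (r j) (CkV ρ k) Z j) (Icc 0 1) := fun Z => by
        have h1 := P369V8.continuousOn_IXj_CV hρ hk 1 (r := fun t => t * (r j + 1) - 1)
          (by fun_prop) Z j
        have h2 : ContinuousOn (fun m : ℝ => ((1 : ℝ), m)) (Icc (0 : ℝ) 1) := by fun_prop
        have h3 := h1.comp h2 fun m hm => ⟨⟨le_rfl, le_rfl⟩, hm⟩
        have h4 : ContinuousOn (fun m => IXj m (r j) (CkV ρ k) Z j) (Icc 0 1) := by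
          refine h3.congr fun m _ => ?_
          simp
        exact ContinuousOn.mul (ContinuousOn.div (by fun_prop) (by fun_prop) fun m hm => by
          have : 0 < r j + m := by linarith [hr j, hm.1]
          positivity) h4
      refine intervalIntegral.integral_mono_on zero_le_one (ii01 zero_le_one (hc Y))
        (ii01 zero_le_one (hc X)) fun m hm => ?_
      exact mul_le_mul_of_nonneg_left (IXj_mono hp0 hm (r j) j hX)
        (div_nonneg (by linarith [hm.2]) (sq_nonneg _))
    refine h1.trans ?_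
    rw [int_IXj_C hp0 (hr j) X j]
    have h2 := hgp j X
    unfold bb
    linarith
  have hU : ∀ j Y, ∫ m in (0 : ℝ)..1, 1 / (r j + m) * IXj m (r j) (CkV ρ k) Y j ≤
      r j * gp j + (r j + 1) * gm j + (1 + (r j + 1) * bb (r j)) * (e j - 1) -
        (1 + r j * bb (r j)) * (e j - 1 + 1) := by
    intro j Y
    have l1 : Tendsto (fun X => r j * gp j + (r j + 1) * gm j +
        (1 + (r j + 1) * bb (r j)) * P369F.enXj (CkV ρ k) (X + 1) j -
        (1 + r j * bb (r j)) * (P369F.enXj (CkV ρ k) X j + trX (CkV ρ k) X)) atTop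
        (𝓝 (r j * gp j + (r j + 1) * gm j + (1 + (r j + 1) * bb (r j)) * (e j - 1) -
        (1 + r j * bb (r j)) * (e j - 1 + 1))) :=
      (tendsto_const_nhds.add (((tendsto_add_atTop_iff_nat 1).2 (hen j)).const_mul _)).sub
        (((hen j).add htr).const_mul _)
    refine ge_of_tendsto l1 ?_
    filter_upwards [eventually_ge_atTop Y] with X hX
    have h1 : ∫ m in (0 : ℝ)..1, 1 / (r j + m) * IXj m (r j) (CkV ρ k) Y j ≤
        ∫ m in (0 : ℝ)..1, 1 / (r j + m) * IXj m (r j) (CkV ρ k) X j := by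
      have hc : ∀ Z, ContinuousOn (fun m => 1 / (r j + m) *
          IXj m (r j) (CkV ρ k) Z j) (Icc 0 1) := fun Z => by
        have h1 := P369V8.continuousOn_IXj_CV hρ hk 1 (r := fun t => t * (r j + 1) - 1)
          (by fun_prop) Z j
        have h2 : ContinuousOn (fun m : ℝ => ((1 : ℝ), m)) (Icc (0 : ℝ) 1) := by fun_prop
        have h3 := h1.comp h2 fun m hm => ⟨⟨le_rfl, le_rfl⟩, hm⟩
        have h4 : ContinuousOn (fun m => IXj m (r j) (CkV ρ k) Z j) (Icc 0 1) := by
          refine h3.congr fun m _ => ?_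
          simp
        exact ContinuousOn.mul (ContinuousOn.div (by fun_prop) (by fun_prop) fun m hm => by
          have : 0 < r j + m := by linarith [hr j, hm.1]
          positivity) h4
      refine intervalIntegral.integral_mono_on zero_le_one (ii01 zero_le_one (hc Y))
        (ii01 zero_le_one (hc X)) fun m hm => ?_
      have : 0 < r j + m := by linarith [hr j, hm.1]
      exact mul_le_mul_of_nonneg_left (IXj_mono hp0 hm (r j) j hX) (by positivity)
    refine h1.trans ?_
    rw [int_IXj_U hp0 (hr j) X j]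
    have e1 : ∫ m in (0 : ℝ)..1, (r j + m) * FXj m (CkV ρ k) X j =
        r j * (∫ m in (0 : ℝ)..1, (1 - m) * FXj m (CkV ρ k) X j) +
          (r j + 1) * ∫ m in (0 : ℝ)..1, m * FXj m (CkV ρ k) X j := by
      rw [← intervalIntegral.integral_const_mul, ← intervalIntegral.integral_const_mul,
        ← intervalIntegral.integral_add ((hint j X _ (by fun_prop)).const_mul _)
          ((hint j X _ (by fun_prop)).const_mul _)]
      refine intervalIntegral.integral_congr fun m _ => ?_
      ring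
    rw [e1]
    have h2 := mul_le_mul_of_nonneg_left (hgp j X) (hr j).le
    have h3 := mul_le_mul_of_nonneg_left (hgm j X) (show 0 ≤ r j + 1 by linarith [hr j])
    unfold bb
    linarith
  have key := potV (B := fun j => gp j + 1 / r j * (e j - 1) - bb (r j) * (e j - 1 + 1))
    (L := fun j => bb (r j) * (e j - 1 - r j) +
      min (r j * (1 + gp j) - (r j + 1) * (1 - gm j))
        (cp (r j) * ((1 + gp j) - (r j + 1) * bb (r j)))) hρ ht hk hr hC (fun j => by
      rcases min_choice (r j * (1 + gp j) - (r j + 1) * (1 - gm j))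
        (cp (r j) * ((1 + gp j) - (r j + 1) * bb (r j))) with h | h
      · left
        intro Y
        refine (hU j Y).trans (le_of_eq ?_)
        rw [h]
        ring
      · right
        rw [h]
        apply le_of_eq
        have h1 : 0 < 1 - r j * bb (r j) := by linarith [P369N.mul_bb_lt (hr j)]
        have h2 : 0 < 1 / r j - bb (r j) := by
          have := hr j
          have e2 : 1 / r j - bb (r j) = (1 - r j * bb (r j)) / r j := by field_simp
          rw [e2]
          positivity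
        have hr' := (hr j).ne'
        show bb (r j) / (1 / r j - bb (r j)) * _ = _
        unfold cp
        have e3 : bb (r j) / (1 / r j - bb (r j)) = r j * bb (r j) / (1 - r j * bb (r j)) := by
          rw [div_eq_div_iff h2.ne' h1.ne']
          field_simp
        rw [e3]
        field_simp
        ring)
  have e4 : ∑ j, PhiC 1 (r j) (k j * (en0j ρ j + 1)) 1 = ∑ j, (bb (r j) * (e j - 1 - r j) +
      P369.g (r j)) := by
    refine Finset.sum_congr rfl fun j _ => ?_
    have h1 := P369N.bb_eq (hr j)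
    unfold PhiC P369.g
    have e5 : 1 * (r j + 1) - 1 = r j := by ring
    rw [e5, one_mul, one_mul, one_mul]
    show bb (r j) * (e j - 1) + Real.log (r j + 1) = _
    have e6 : Real.log (r j + 1) = bb (r j) + Real.log (r j) := by linarith
    rw [e6]
    ring
  rw [e4] at key
  rw [Finset.sum_add_distrib, Finset.sum_add_distrib] at key
  rw [Finset.sum_sub_distrib]
  linarith

end

end Vale.Agent.P369G
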