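import Vale.Agent.P369.H809.Path
import Vale.Agent.P369.H817.LossAmpI

/-!
P369 (helper351): the loss path of the state `CkV ρ k`, all properties used by the hot case.
-/

set_option linter.all false

namespace Vale.Agent.P369G

open Matrix MeasureTheory Set Filter
open Vale.Agent.P369 (Conf)
open Vale.Agent.P369A
open Vale.Agent.P369W (CkV en0j)
open Vale.Agent.P369F
open Vale.Agent.P369V8 (kp xp lossI_CkV hasSum_lt_CkV lossV_one)
open Vale.Agent.P369L (lossI lt)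
open scoped ComplexOrder Topology

noncomputable section

variable {n M : ℕ} {ρ : Matrix (Fin n → Fin (M + 1)) (Fin n → Fin (M + 1)) ℂ}

/-- the state `CkV ρ k` after the loss `x` -/
def hotA (ρ : Matrix (Fin n → Fin (M + 1)) (Fin n → Fin (M + 1)) ℂ) (k : Fin n → ℝ) (x : ℝ) :
    Ker n :=
  CkV (lossV (fun j => x * k j / (1 + x * (k j - 1))) ρ) (fun j => 1 + x * (k j - 1))

theorem hotA_eq (ρ : Matrix (Fin n → Fin (M + 1)) (Fin n → Fin (M + 1)) ℂ) (k : Fin n → ℝ) :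
    hotA ρ k = LoP k (fun _ => 1) ρ := by
  funext x
  unfold hotA LoP
  have e : xLo k (fun _ => 1) x = fun j => x * k j / (1 + x * (k j - 1)) := by
    funext j
    unfold xLo kLo
    rw [one_mul]
  rw [e]
  rfl

/-- (a) -/
theorem hotA_one {k : Fin n → ℝ} (hk : ∀ j, 1 < k j) : hotA ρ k 1 = CkV ρ k := by
  rw [hotA_eq, LoP_one hk, lossV_one]

theorem hotA_k {k : Fin n → ℝ} (hk : ∀ j, 1 < k j) {x : ℝ} (hx : x ∈ Ioc (0 : ℝ) 1) (j : Fin n) :
    1 < 1 + x * (k j - 1) := by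
  have := mul_pos hx.1 (sub_pos.2 (hk j))
  linarith

theorem hotA_x {k : Fin n → ℝ} (hk : ∀ j, 1 < k j) {x : ℝ} (hx : x ∈ Ioc (0 : ℝ) 1) (j : Fin n) :
    0 < x * k j / (1 + x * (k j - 1)) ∧ x * k j / (1 + x * (k j - 1)) ≤ 1 := by
  have h1 := hotA_k hk hx j
  have h2 := hk j
  constructor
  · exact div_pos (mul_pos hx.1 (by linarith)) (by linarith)
  · rw [div_le_one (by linarith)]
    nlinarith [hx.2]

/-- (b) -/
theorem hotA_reg (hρ : ρ.PosDef) (ht : ρ.trace = 1) {k : Fin n → ℝ} (hk : ∀ j, 1 < k j) {x : ℝ}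
    (hx : x ∈ Ioc (0 : ℝ) 1) : ∃ E, Reg (hotA ρ k x) E :=
  ⟨_, reg_CL hρ ht (hotA_k hk hx) (fun j => (hotA_x hk hx j).1) (fun j => (hotA_x hk hx j).2)⟩

/-- (b) -/
theorem hotA_en (hρ : ρ.PosDef) (ht : ρ.trace = 1) {k : Fin n → ℝ} (hk : ∀ j, 1 < k j) {x : ℝ}
    (hx : x ∈ Ioc (0 : ℝ) 1) (j : Fin n) :
    Tendsto (fun X => enXj (hotA ρ k x) X j) atTop (𝓝 (x * (k j * en0j ρ j + (k j - 1)))) := by
  have h1 := P369W.tendsto_enXj_CkV (ρ := lossV (fun j => x * k j / (1 + x * (k j - 1))) ρ)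
    ((lossV_trace (fun j => (hotA_x hk hx j).1.le) ρ).trans ht)
    (k := fun j => 1 + x * (k j - 1)) (fun j => (hotA_k hk hx j).le) j
  rw [en0j_lossV fun j => (hotA_x hk hx j).1.le] at h1
  have h2 := hotA_k hk hx j
  have e : (1 + x * (k j - 1)) * (x * k j / (1 + x * (k j - 1)) * en0j ρ j) +
      (1 + x * (k j - 1) - 1) = x * (k j * en0j ρ j + (k j - 1)) := by
    have h3 : 1 + x * (k j - 1) ≠ 0 := by linarith
    field_simp
    ring
  rw [e] at h1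
  exact h1

/-- (c) -/
theorem hotA_cont (hρ : ρ.PosDef) (ht : ρ.trace = 1) {k : Fin n → ℝ} (hk : ∀ j, 1 < k j)
    (a b : Conf n) : ContinuousOn (fun x => hotA ρ k x a b) (Ioc 0 1) := by
  intro x hx
  have h := bpath_loss (x := fun _ => 1) hρ ht hk (fun _ => one_pos) (fun _ => le_rfl)
    (a := x) (b := 1) hx.1 le_rfl
  rw [hotA_eq]
  exact (h.der x ⟨le_rfl, hx.2⟩ a b).continuousAt.continuousWithinAt

/-- (d), upward form -/
theorem hotA_flow_low (hρ : ρ.PosDef) (ht : ρ.trace = 1) {k : Fin n → ℝ} (hk : ∀ j, 1 < k j)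
    {x₀ : ℝ} (hx : x₀ ∈ Ioc (0 : ℝ) 1) {ε : ℝ} (hε : 0 < ε) :
    ∀ᶠ X in atTop, ∫ x in x₀..1, 1 / x * ∑ j, (1 - ∫ m in (0 : ℝ)..1, m * FXj m (hotA ρ k x) X j) ≤
      Sl (hotA ρ k 1) - Sl (hotA ρ k x₀) + ε := by
  have h := bpath_loss (x := fun _ => 1) hρ ht hk (fun _ => one_pos) (fun _ => le_rfl)
    (a := x₀) (b := 1) hx.1 le_rfl
  rw [hotA_eq]
  filter_upwards [h.low hx.2 hε] with X hX
  refine le_trans (le_of_eq ?_) hX
  refine intervalIntegral.integral_congr fun t _ => ?_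
  unfold BPath.brateX
  rw [Finset.mul_sum]

/-- (d) -/
theorem hotA_flow (hρ : ρ.PosDef) (ht : ρ.trace = 1) {k : Fin n → ℝ} (hk : ∀ j, 1 < k j)
    {x₀ : ℝ} (hx : x₀ ∈ Ioc (0 : ℝ) 1) {ε : ℝ} (hε : 0 < ε) :
    ∀ᶠ X in atTop, Sl (hotA ρ k x₀) - Sl (hotA ρ k 1) - ε ≤
      ∫ x in x₀..1, 1 / x * ∑ j, ((∫ m in (0 : ℝ)..1, m * FXj m (hotA ρ k x) X j) - 1) := by
  filter_upwards [hotA_flow_low hρ ht hk hx hε] with X hX
  have e : (∫ x in x₀..1, 1 / x * ∑ j, ((∫ m in (0 : ℝ)..1, m * FXj m (hotA ρ k x) X j) - 1)) =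
      -∫ x in x₀..1, 1 / x * ∑ j, (1 - ∫ m in (0 : ℝ)..1, m * FXj m (hotA ρ k x) X j) := by
    rw [← intervalIntegral.integral_neg]
    refine intervalIntegral.integral_congr fun t _ => ?_
    show _ = -(1 / t * ∑ j, (1 - ∫ m in (0 : ℝ)..1, m * FXj m (hotA ρ k t) X j))
    rw [← mul_neg, ← Finset.sum_neg_distrib]
    congr 1
    exact Finset.sum_congr rfl fun j _ => by ring
  rw [e]
  linarith

theorem hotA_params {k s t : ℝ} (hk : 1 < k) (hs : 0 < s) (ht : 0 < t) :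
    kp (s / t) (1 + t * (k - 1)) = 1 + s * (k - 1) ∧
      xp (s / t) (1 + t * (k - 1)) (t * k / (1 + t * (k - 1))) = s * k / (1 + s * (k - 1)) := by
  have h1 : 0 < 1 + t * (k - 1) := by
    have := mul_pos ht (sub_pos.2 hk)
    linarith
  have h2 : 0 < 1 + s * (k - 1) := by
    have := mul_pos hs (sub_pos.2 hk)
    linarith
  have e1 : kp (s / t) (1 + t * (k - 1)) = 1 + s * (k - 1) := by
    unfold kp
    field_simp
    ring
  refine ⟨e1, ?_⟩
  unfold xp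
  rw [e1]
  field_simp

/-- (e) -/
theorem hotA_summable {k : Fin n → ℝ} (hk : ∀ j, 1 < k j) {s t : ℝ} (hs : 0 < s) (hst : s ≤ t)
    (ht1 : t ≤ 1) (a b : Conf n) : Summable (lt (s / t) (hotA ρ k t) a b) := by
  have ht0 : 0 < t := hs.trans_le hst
  have hx : t ∈ Ioc (0 : ℝ) 1 := ⟨ht0, ht1⟩
  exact (hasSum_lt_CkV (ρ := ρ) (div_nonneg hs.le ht0.le) ((div_le_one ht0).2 hst)
    (fun j => (hotA_k hk hx j).le) (fun j => (hotA_x hk hx j).1.le) a b).summable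

/-- (e) -/
theorem hotA_loss {k : Fin n → ℝ} (hk : ∀ j, 1 < k j) {s t : ℝ} (hs : 0 < s) (hst : s ≤ t)
    (ht1 : t ≤ 1) : lossI (s / t) (hotA ρ k t) = hotA ρ k s := by
  have ht0 : 0 < t := hs.trans_le hst
  have hx : t ∈ Ioc (0 : ℝ) 1 := ⟨ht0, ht1⟩
  have h := lossI_CkV (ρ := ρ) (θ := s / t) (k := fun j => 1 + t * (k j - 1))
    (x := fun j => t * k j / (1 + t * (k j - 1))) (div_nonneg hs.le ht0.le)
    ((div_le_one ht0).2 hst) (fun j => (hotA_k hk hx j).le) (fun j => (hotA_x hk hx j).1.le)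
  have e1 : (fun j => kp (s / t) (1 + t * (k j - 1))) = fun j => 1 + s * (k j - 1) :=
    funext fun j => (hotA_params (hk j) hs ht0).1
  have e2 : (fun j => xp (s / t) (1 + t * (k j - 1)) (t * k j / (1 + t * (k j - 1)))) =
      fun j => s * k j / (1 + s * (k j - 1)) :=
    funext fun j => (hotA_params (hk j) hs ht0).2
  rw [e1, e2] at h
  exact h

end

end Vale.Agent.P369G
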