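import Vale.Agent.P369.G351.Final
import Vale.Agent.P369.H326.Iso

/-!
P369 (helper351): (A') in the form used by the rate assembly.
-/

set_option linter.all false

namespace Vale.Agent.P369G

open Matrix MeasureTheory Set Filter
open Vale.Agent.P369A
open Vale.Agent.P369W (CkV posDef_CkV)
open Vale.Agent.P369F (FXj int_mono_w)
open Vale.Agent.P369N (IsoCold)
open scoped ComplexOrder Topology

variable {n : ℕ} {M : ℕ} {ρ : Matrix (Fin n → Fin (M + 1)) (Fin n → Fin (M + 1)) ℂ}

theorem isoCold_CkV (hρ : ρ.PosDef) (ht : ρ.trace = 1) {k : Fin n → ℝ} (hk : ∀ j, 1 < k j) :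
    IsoCold (CkV ρ k) := by
  intro gp gm hgp hgm r hr
  have hp0 : ∀ X, (cut X (CkV ρ k)).PosDef := posDef_CkV hρ hk
  refine AprimeV hρ ht hk (fun j X => ?_) (fun j X => ?_) hr
  · exact (int_mono_w hp0 (w := fun m => 1 - m) (by fun_prop)
      (fun m hm => by linarith [hm.2]) j).ge_of_tendsto (hgp j) X
  · exact (int_mono_w hp0 (w := fun m => m) (by fun_prop)
      (fun m hm => hm.1) j).ge_of_tendsto (hgm j) X

end Vale.Agent.P369G
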