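import Vale.Agent.P369.G351.HotPath
import Vale.Agent.P369.G351.IsoCold
import Vale.Agent.P369.H468.Hot
import Vale.Agent.P369.H946.E3c

/-!
P369 (helper351): the hot isoperimetric inequality for the states `CkV ρ k`.
-/

set_option linter.all false

namespace Vale.Agent.P369G

open Matrix MeasureTheory Set Filter
open Vale.Agent.P369 (Conf)
open Vale.Agent.P369A
open Vale.Agent.P369W (CkV en0j)
open Vale.Agent.P369F
open Vale.Agent.P369V8 (kp xp lossI_CkV hasSum_lt_CkV lossV_one)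
open Vale.Agent.P369L (lossI lt e3_step dp_step)
open Vale.Agent.P369N (IsoCold IsoHot)
open scoped ComplexOrder Topology

noncomputable section

variable {n M : ℕ} {ρ : Matrix (Fin n → Fin (M + 1)) (Fin n → Fin (M + 1)) ℂ}

theorem enXj_mono {s : Ker n} (hs : ∀ X, (cut X s).PosSemidef) (j : Fin n) :
    Monotone fun X => P369F.enXj s X j :=
  sum_Ct_mono (g := fun x => (x j : ℝ) * (s x x).re) fun x =>
    mul_nonneg (Nat.cast_nonneg _) (diag_nonneg_of_cut hs x)

theorem isoHot_CkV (hρ : ρ.PosDef) (ht : ρ.trace = 1) {k : Fin n → ℝ} (hk : ∀ j, 1 < k j) :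
    IsoHot (CkV ρ k) := by
  intro gp gm hgp hgm r hr
  have hone : (1 : ℝ) ∈ Ioc (0 : ℝ) 1 := ⟨one_pos, le_rfl⟩
  have hreg : ∀ x ∈ Ioc (0 : ℝ) 1, ∃ E, Reg (hotA ρ k x) E := fun x hx => hotA_reg hρ ht hk hx
  have hp : ∀ x ∈ Ioc (0 : ℝ) 1, ∀ X, (cut X (hotA ρ k x)).PosDef := fun x hx =>
    (hreg x hx).choose_spec.pos
  have h1 : hotA ρ k 1 = CkV ρ k := hotA_one hk
  have hp1 := hp 1 hone
  have key := Vale.Agent.P369Q.hot_abs (A := hotA ρ k)
    (En := fun j => k j * en0j ρ j + (k j - 1)) (gp := gp) (gm := gm) (r := r) hp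
    (hotA_cont hρ ht hk)
    (fun x hx => (hreg x hx).choose_spec.tr_le)
    (hreg 1 hone).choose_spec.tr
    (fun x hx j X => (enXj_mono (fun X => (hp x hx X).posSemidef) j).ge_of_tendsto
      (hotA_en hρ ht hk hx j) X)
    (fun x hx j => hotA_en hρ ht hk hx j)
    (fun x hx => (hreg x hx).choose_spec.Sl_nonneg)
    (fun x₀ hx ε hε => hotA_flow hρ ht hk hx hε)
    ?_ ?_ ?_ ?_ hr
  · rw [h1] at key
    exact key
  · intro j q hq x hx ν hν Y ε hε
    have e1 : lossI x (hotA ρ k 1) = hotA ρ k x := by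
      have h := hotA_loss (ρ := ρ) hk hx.1 hx.2 le_rfl
      rwa [div_one] at h
    have e2 : ∀ a b, Summable (lt x (hotA ρ k 1) a b) := fun a b => by
      have h := hotA_summable (ρ := ρ) hk hx.1 hx.2 le_rfl a b
      rwa [div_one] at h
    have h2 := dp_step hx.1 hx.2 hp1 e2 (by rw [e1]; exact hp x hx) hν q Y j hε
    rw [e1] at h2
    exact h2.exists
  · intro j q hq l s t hl hs ht' hst hlst Y ε hε
    have hst0 : 0 < s + t := add_pos hs ht'
    have hxst : s + t ∈ Ioc (0 : ℝ) 1 := ⟨hst0, hst⟩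
    have hsx : s ∈ Ioc (0 : ℝ) 1 := ⟨hs, by linarith⟩
    have htx : t ∈ Ioc (0 : ℝ) 1 := ⟨ht', by linarith⟩
    have e1 : lossI (s / (s + t)) (hotA ρ k (s + t)) = hotA ρ k s :=
      hotA_loss hk hs (by linarith) hst
    have e2 : lossI (t / (s + t)) (hotA ρ k (s + t)) = hotA ρ k t :=
      hotA_loss hk ht' (by linarith) hst
    have h2 := e3_step (x := s / (s + t)) (y := t / (s + t)) (div_pos hs hst0)
      (div_pos ht' hst0) (by rw [← add_div, div_self hst0.ne']) (hp _ hxst)
      (hotA_summable (ρ := ρ) hk hs (by linarith) hst)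
      (hotA_summable (ρ := ρ) hk ht' (by linarith) hst) (by rw [e1]; exact hp s hsx)
      (by rw [e2]; exact hp t htx) (l := (s + t) * l) ⟨by positivity, hlst⟩ ((s + t) * q) Y Y j hε
    rw [e1, e2] at h2
    have c1 : ∀ z : ℝ, s / (s + t) * ((s + t) * z) = s * z := fun z => by field_simp
    have c2 : ∀ z : ℝ, t / (s + t) * ((s + t) * z) = t * z := fun z => by field_simp
    simp only [c1, c2] at h2
    exact h2.exists
  · intro j X
    rw [h1]
    rw [h1] at hp1
    exact (int_mono_w hp1 (w := fun m => 1 - m) (by fun_prop)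
      (fun m hm => by linarith [hm.2]) j).ge_of_tendsto (hgp j) X
  · intro j X
    rw [h1]
    rw [h1] at hp1
    exact (int_mono_w hp1 (w := fun m => m) (by fun_prop)
      (fun m hm => hm.1) j).ge_of_tendsto (hgm j) X

end

end Vale.Agent.P369G
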