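import Vale.Agent.P369.G351.IsoHot
import Vale.Agent.P369.H809.Deliver

/-!
P369 (helper351): the finite-dimensional block, from all parts; and the theorem for physical states.
-/

set_option linter.all false

namespace Vale.Agent.P369G

open Matrix Set Filter
open Vale.Agent.P369 (Conf)
open Vale.Agent.P369N (ThFd thFd_of_iso epni_thv)
open scoped ComplexOrder

/-- the finite-dimensional block for every transmissivity and all positive parameters -/
theorem thFd_pos {n : ℕ} (hn : 1 ≤ n) {η : ℝ} (h0 : 0 < η) (h1 : η < 1) {s : Fin n → ℝ}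
    (hs : ∀ j, 0 < s j) : ThFd n η s :=
  thFd_of_iso hn hs Vale.Agent.P369F.hloss_deliver (Vale.Agent.P369F.hpath_deliver hs)
    (fun _ _ _ hρ ht hk => isoCold_CkV hρ ht hk) (fun _ _ _ hρ ht hk => isoHot_CkV hρ ht hk) h0 h1

end Vale.Agent.P369G
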